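import Mathlib

namespace Vale.Agent.Lib.P226.H97

open MeasureTheory ProbabilityTheory

/-- The standard Gaussian measure of `ℝ^d` has density `(2π)^(-d/2) exp(-|x|²/2)` with respect
to Lebesgue measure. -/
theorem stdGaussian_eq_withDensity (d : ℕ) :
    stdGaussian (EuclideanSpace ℝ (Fin d)) =
      (volume : Measure (EuclideanSpace ℝ (Fin d))).withDensity
        (fun x => ENNReal.ofReal
          ((2 * Real.pi) ^ (-(d : ℝ) / 2) * Real.exp (-‖x‖ ^ 2 / 2))) := by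
  have hG : ∀ t : EuclideanSpace ℝ (Fin d), Integrable
      (fun v : EuclideanSpace ℝ (Fin d) =>
        Complex.exp (-(1 / 2 : ℂ) * (‖v‖ : ℂ) ^ 2 + Complex.I * ((inner ℝ t v : ℝ) : ℂ))) :=
    fun t => GaussianFourier.integrable_cexp_neg_mul_sq_norm_add (by norm_num) Complex.I t
  have hρ : Integrable (fun x : EuclideanSpace ℝ (Fin d) =>
      (2 * Real.pi) ^ (-(d : ℝ) / 2) * Real.exp (-‖x‖ ^ 2 / 2)) := by
    have h0 := ((hG 0).norm).const_mul ((2 * Real.pi) ^ (-(d : ℝ) / 2))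
    refine h0.congr (Filter.Eventually.of_forall (fun x => ?_))
    show (2 * Real.pi) ^ (-(d : ℝ) / 2)
        * ‖Complex.exp (-(1 / 2 : ℂ) * (‖x‖ : ℂ) ^ 2
            + Complex.I * ((inner ℝ (0 : EuclideanSpace ℝ (Fin d)) x : ℝ) : ℂ))‖
      = (2 * Real.pi) ^ (-(d : ℝ) / 2) * Real.exp (-‖x‖ ^ 2 / 2)
    rw [Complex.norm_exp]
    congr 2
    simp only [inner_zero_left, Complex.ofReal_zero, mul_zero, add_zero]
    have e : (-(1 / 2 : ℂ) * (‖x‖ : ℂ) ^ 2) = ((-‖x‖ ^ 2 / 2 : ℝ) : ℂ) := by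
      push_cast
      ring
    rw [e, Complex.ofReal_re]
  have hρ0 : ∀ x : EuclideanSpace ℝ (Fin d),
      0 ≤ (2 * Real.pi) ^ (-(d : ℝ) / 2) * Real.exp (-‖x‖ ^ 2 / 2) :=
    fun x => by positivity
  have : IsFiniteMeasure ((volume : Measure (EuclideanSpace ℝ (Fin d))).withDensity
      (fun x => ENNReal.ofReal
        ((2 * Real.pi) ^ (-(d : ℝ) / 2) * Real.exp (-‖x‖ ^ 2 / 2)))) :=
    isFiniteMeasure_withDensity_ofReal hρ.2
  apply Measure.ext_of_charFun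
  ext t
  rw [charFun_stdGaussian, charFun_apply,
    integral_withDensity_eq_integral_toReal_smul (by fun_prop)
      (Filter.Eventually.of_forall (fun x => ENNReal.ofReal_lt_top))]
  have hpt : ∀ x : EuclideanSpace ℝ (Fin d),
      (ENNReal.ofReal ((2 * Real.pi) ^ (-(d : ℝ) / 2) * Real.exp (-‖x‖ ^ 2 / 2))).toReal
          • Complex.exp (((inner ℝ x t : ℝ) : ℂ) * Complex.I)
        = (((2 * Real.pi) ^ (-(d : ℝ) / 2) : ℝ) : ℂ)
          * Complex.exp (-(1 / 2 : ℂ) * (‖x‖ : ℂ) ^ 2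
              + Complex.I * ((inner ℝ t x : ℝ) : ℂ)) := by
    intro x
    rw [ENNReal.toReal_ofReal (hρ0 x), Complex.real_smul, Complex.ofReal_mul, Complex.ofReal_exp,
      mul_assoc, ← Complex.exp_add, real_inner_comm x t]
    congr 2
    push_cast
    ring
  rw [integral_congr_ae (Filter.Eventually.of_forall hpt), integral_const_mul,
    GaussianFourier.integral_cexp_neg_mul_sq_norm_add (by norm_num) Complex.I t,
    finrank_euclideanSpace_fin]
  have e1 : ((Real.pi : ℂ) / (1 / 2 : ℂ)) = ((2 * Real.pi : ℝ) : ℂ) := by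
    push_cast
    ring
  have e2 : ((d : ℂ) / 2) = (((d : ℝ) / 2 : ℝ) : ℂ) := by
    push_cast
    ring
  rw [e1, e2, ← Complex.ofReal_cpow (by positivity), ← mul_assoc, ← Complex.ofReal_mul,
    ← Real.rpow_add (by positivity)]
  have e3 : -(d : ℝ) / 2 + (d : ℝ) / 2 = 0 := by ring
  rw [e3, Real.rpow_zero, Complex.ofReal_one, one_mul]
  congr 1
  rw [Complex.I_sq]
  ring

/-- The mean of the norm under the standard Gaussian measure of `ℝ^d`, `d ≥ 1`, as a product of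
explicit factors (surface of the sphere times a Gamma integral). -/
theorem integral_norm_stdGaussian (d : ℕ) (hd : 1 ≤ d) :
    ∫ x, ‖x‖ ∂(stdGaussian (EuclideanSpace ℝ (Fin d)))
      = (d : ℝ) * (Real.sqrt Real.pi ^ d / Real.Gamma ((d : ℝ) / 2 + 1))
        * ((2 * Real.pi) ^ (-(d : ℝ) / 2)
          * ((1 / 2 : ℝ) ^ (-((d : ℝ) + 1) / 2) * (1 / 2) * Real.Gamma (((d : ℝ) + 1) / 2))) := by
  have hρ0 : ∀ x : EuclideanSpace ℝ (Fin d),
      0 ≤ (2 * Real.pi) ^ (-(d : ℝ) / 2) * Real.exp (-‖x‖ ^ 2 / 2) :=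
    fun x => by positivity
  rw [stdGaussian_eq_withDensity,
    integral_withDensity_eq_integral_toReal_smul (by fun_prop)
      (Filter.Eventually.of_forall (fun x => ENNReal.ofReal_lt_top))]
  have hpt : ∀ x : EuclideanSpace ℝ (Fin d),
      (ENNReal.ofReal ((2 * Real.pi) ^ (-(d : ℝ) / 2) * Real.exp (-‖x‖ ^ 2 / 2))).toReal • ‖x‖
        = (fun r : ℝ => (2 * Real.pi) ^ (-(d : ℝ) / 2) * Real.exp (-r ^ 2 / 2) * r) ‖x‖ := by
    intro x
    rw [ENNReal.toReal_ofReal (hρ0 x), smul_eq_mul]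
  have hne : Nonempty (Fin d) := ⟨⟨0, by omega⟩⟩
  have hnt : Nontrivial (EuclideanSpace ℝ (Fin d)) :=
    Module.nontrivial_of_finrank_pos (R := ℝ) (by rw [finrank_euclideanSpace_fin]; omega)
  rw [integral_congr_ae (Filter.Eventually.of_forall hpt),
    integral_fun_norm_addHaar (μ := (volume : Measure (EuclideanSpace ℝ (Fin d))))
      (fun r : ℝ => (2 * Real.pi) ^ (-(d : ℝ) / 2) * Real.exp (-r ^ 2 / 2) * r),
    finrank_euclideanSpace_fin]
  have hball : (volume : Measure (EuclideanSpace ℝ (Fin d))).real (Metric.ball 0 1)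
      = Real.sqrt Real.pi ^ d / Real.Gamma ((d : ℝ) / 2 + 1) := by
    rw [Measure.real, EuclideanSpace.volume_ball, Fintype.card_fin, ENNReal.ofReal_one, one_pow,
      one_mul, ENNReal.toReal_ofReal]
    have hG : 0 < Real.Gamma ((d : ℝ) / 2 + 1) := Real.Gamma_pos_of_pos (by positivity)
    positivity
  have hint : ∫ y in Set.Ioi (0 : ℝ), y ^ (d - 1)
        • ((2 * Real.pi) ^ (-(d : ℝ) / 2) * Real.exp (-y ^ 2 / 2) * y)
      = (2 * Real.pi) ^ (-(d : ℝ) / 2)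
        * ((1 / 2 : ℝ) ^ (-((d : ℝ) + 1) / 2) * (1 / 2) * Real.Gamma (((d : ℝ) + 1) / 2)) := by
    have h1 : ∫ y in Set.Ioi (0 : ℝ), y ^ (d - 1)
          • ((2 * Real.pi) ^ (-(d : ℝ) / 2) * Real.exp (-y ^ 2 / 2) * y)
        = ∫ y in Set.Ioi (0 : ℝ), (2 * Real.pi) ^ (-(d : ℝ) / 2)
          * (y ^ (d : ℝ) * Real.exp (-(1 / 2 : ℝ) * y ^ (2 : ℝ))) := by
      apply setIntegral_congr_fun measurableSet_Ioi
      intro y hy
      have hy0 : (0 : ℝ) < y := hy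
      have e1 : y ^ (d : ℝ) = y ^ (d - 1) * y := by
        rw [Real.rpow_natCast, ← pow_succ, Nat.sub_add_cancel hd]
      have e2 : y ^ (2 : ℝ) = y ^ 2 := by
        rw [← Real.rpow_natCast]
        norm_num
      show y ^ (d - 1) • ((2 * Real.pi) ^ (-(d : ℝ) / 2) * Real.exp (-y ^ 2 / 2) * y)
        = (2 * Real.pi) ^ (-(d : ℝ) / 2) * (y ^ (d : ℝ) * Real.exp (-(1 / 2 : ℝ) * y ^ (2 : ℝ)))
      rw [e1, e2, smul_eq_mul]
      have e3 : -y ^ 2 / 2 = -(1 / 2 : ℝ) * y ^ 2 := by ring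
      rw [e3]
      ring
    rw [h1, integral_const_mul,
      integral_rpow_mul_exp_neg_mul_rpow (p := 2) (q := (d : ℝ)) (b := 1 / 2) (by norm_num)
        (by have : (0 : ℝ) ≤ (d : ℝ) := Nat.cast_nonneg d; linarith) (by norm_num)]
  rw [hball, hint, nsmul_eq_mul, smul_eq_mul]
  ring

theorem gamma_five_half : Real.Gamma (5 / 2) = 3 / 4 * Real.sqrt Real.pi := by
  have h1 : Real.Gamma (1 / 2 + 1) = 1 / 2 * Real.Gamma (1 / 2) :=
    Real.Gamma_add_one (by norm_num)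
  have h2 : Real.Gamma ((1 / 2 + 1) + 1) = (1 / 2 + 1) * Real.Gamma (1 / 2 + 1) :=
    Real.Gamma_add_one (by norm_num)
  have e : (5 / 2 : ℝ) = (1 / 2 + 1) + 1 := by norm_num
  rw [e, h2, h1, Real.Gamma_one_half_eq]
  ring

theorem sqrt_two_pi_sq : Real.sqrt (2 * Real.pi) ^ 2 = 2 * Real.pi :=
  Real.sq_sqrt (by positivity)

theorem sqrt_pi_sq : Real.sqrt Real.pi ^ 2 = Real.pi :=
  Real.sq_sqrt Real.pi_pos.le

theorem sqrt_two_pi_eq : Real.sqrt (2 * Real.pi) = Real.sqrt 2 * Real.sqrt Real.pi :=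
  Real.sqrt_mul (by norm_num) _

/-- The mean of the norm of a standard Gaussian vector of `ℝ^3` is `4 / √(2π)`. -/
theorem integral_norm_stdGaussian_three :
    ∫ x, ‖x‖ ∂(stdGaussian (EuclideanSpace ℝ (Fin 3))) = 4 / Real.sqrt (2 * Real.pi) := by
  rw [integral_norm_stdGaussian 3 (by norm_num)]
  have hpi : 0 < Real.pi := Real.pi_pos
  have hs : 0 < Real.sqrt Real.pi := Real.sqrt_pos.2 hpi
  have hs2 : 0 < Real.sqrt (2 * Real.pi) := Real.sqrt_pos.2 (by positivity)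
  have e1 : ((3 : ℕ) : ℝ) / 2 + 1 = 5 / 2 := by norm_num
  have e2 : (((3 : ℕ) : ℝ) + 1) / 2 = 2 := by norm_num
  have e3 : (1 / 2 : ℝ) ^ (-(((3 : ℕ) : ℝ) + 1) / 2) = 4 := by
    have e : (-(((3 : ℕ) : ℝ) + 1) / 2) = -(2 : ℝ) := by norm_num
    rw [e, Real.rpow_neg (by norm_num), Real.rpow_two]
    norm_num
  have e4 : (2 * Real.pi) ^ (-((3 : ℕ) : ℝ) / 2)
      = 1 / (2 * Real.pi * Real.sqrt (2 * Real.pi)) := by
    have e : (-((3 : ℕ) : ℝ) / 2) = -((1 : ℝ) + 1 / 2) := by norm_num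
    rw [e, Real.rpow_neg (by positivity), Real.rpow_add (by positivity), Real.rpow_one,
      ← Real.sqrt_eq_rpow, one_div]
  rw [e1, e2, e3, e4, gamma_five_half, Real.Gamma_two]
  have h3 : Real.sqrt Real.pi ^ 3 = Real.pi * Real.sqrt Real.pi := by
    rw [pow_succ, sqrt_pi_sq]
  rw [h3]
  push_cast
  field_simp
  ring

/-- The mean of the norm of a standard Gaussian vector of `ℝ^4` is `3 √(2π) / 4`. -/
theorem integral_norm_stdGaussian_four :
    ∫ x, ‖x‖ ∂(stdGaussian (EuclideanSpace ℝ (Fin 4))) = 3 * Real.sqrt (2 * Real.pi) / 4 := by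
  rw [integral_norm_stdGaussian 4 (by norm_num)]
  have hpi : 0 < Real.pi := Real.pi_pos
  have hs : 0 < Real.sqrt Real.pi := Real.sqrt_pos.2 hpi
  have h2 : 0 < Real.sqrt 2 := Real.sqrt_pos.2 (by norm_num)
  have e1 : ((4 : ℕ) : ℝ) / 2 + 1 = 2 + 1 := by norm_num
  have e2 : (((4 : ℕ) : ℝ) + 1) / 2 = 5 / 2 := by norm_num
  have e3 : (1 / 2 : ℝ) ^ (-(((4 : ℕ) : ℝ) + 1) / 2) = 4 * Real.sqrt 2 := by
    have e : (-(((4 : ℕ) : ℝ) + 1) / 2) = -((2 : ℝ) + 1 / 2) := by norm_num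
    rw [e, Real.rpow_neg (by norm_num), Real.rpow_add (by norm_num), Real.rpow_two,
      ← Real.sqrt_eq_rpow]
    have h12 : Real.sqrt (1 / 2) = 1 / Real.sqrt 2 := by
      rw [Real.sqrt_div (by norm_num), Real.sqrt_one]
    rw [h12]
    field_simp
    norm_num
  have e4 : (2 * Real.pi) ^ (-((4 : ℕ) : ℝ) / 2) = 1 / (2 * Real.pi) ^ 2 := by
    have e : (-((4 : ℕ) : ℝ) / 2) = -(2 : ℝ) := by norm_num
    rw [e, Real.rpow_neg (by positivity), Real.rpow_two, one_div]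
  have hG3 : Real.Gamma (2 + 1) = 2 := by
    rw [Real.Gamma_add_one (by norm_num), Real.Gamma_two]
    norm_num
  rw [e1, e2, e3, e4, gamma_five_half, hG3, sqrt_two_pi_eq]
  have h4 : Real.sqrt Real.pi ^ 4 = Real.pi ^ 2 := by
    have : Real.sqrt Real.pi ^ 4 = (Real.sqrt Real.pi ^ 2) ^ 2 := by ring
    rw [this, sqrt_pi_sq]
  rw [h4]
  push_cast
  field_simp
  ring

/-- The constant of the projection bound: `(3/4) (E|g₄|)² = (27 π² / 256) (E|g₃|)²`. -/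
theorem chi_ratio :
    3 / 4 * (∫ x, ‖x‖ ∂(stdGaussian (EuclideanSpace ℝ (Fin 4)))) ^ 2
      = 27 * Real.pi ^ 2 / 256 * (∫ x, ‖x‖ ∂(stdGaussian (EuclideanSpace ℝ (Fin 3)))) ^ 2 := by
  rw [integral_norm_stdGaussian_three, integral_norm_stdGaussian_four]
  have hpi : 0 < Real.pi := Real.pi_pos
  have hs2 : 0 < Real.sqrt (2 * Real.pi) := Real.sqrt_pos.2 (by positivity)
  have hsq := sqrt_two_pi_sq
  rw [div_pow, mul_pow, div_pow, hsq]
  field_simp
  ring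

end Vale.Agent.Lib.P226.H97
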