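import Mathlib
import Vale.Agent.Lib.P226.helper35.ProjA
import Vale.Agent.Lib.P226.helper5.Voronoi
import Vale.Agent.Lib.P226.H97.ChiMean
import Vale.Agent.Lib.P226.helper85.Hyperplane
import Vale.Agent.Lib.P226.helper96.InvHom

open MeasureTheory ProbabilityTheory

namespace Vale.Agent.Lib.P226.H97G

open Vale.Agent.Lib.P226.H35P (hsup le_hsup hsup_smul hsup_zero abs_hsup_le continuous_hsup)

/-- Euclidean space of dimension `d`. -/
abbrev Eu (d : ℕ) := EuclideanSpace ℝ (Fin d)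

/-- `‖q‖` times the orthogonal projection of `x` onto the hyperplane orthogonal to `q`
(zero when `q = 0`). -/
noncomputable def pr {d : ℕ} (q x : Eu d) : Eu d := ‖q‖ • x - (inner ℝ x q / ‖q‖) • q

theorem pr_zero_left {d : ℕ} (x : Eu d) : pr (0 : Eu d) x = 0 := by
  simp [pr]

theorem norm_pr_sq {d : ℕ} (q x : Eu d) :
    ‖pr q x‖ ^ 2 = ‖q‖ ^ 2 * ‖x‖ ^ 2 - inner ℝ x q ^ 2 := by
  by_cases hq : q = 0
  · subst hq
    simp [pr]
  · have hn : ‖q‖ ≠ 0 := norm_ne_zero_iff.2 hq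
    unfold pr
    rw [norm_sub_sq_real, norm_smul, norm_smul, real_inner_smul_left, real_inner_smul_right,
      Real.norm_eq_abs, Real.norm_eq_abs, abs_norm, mul_pow, mul_pow, sq_abs]
    field_simp
    ring

theorem norm_pr_le {d : ℕ} (q x : Eu d) : ‖pr q x‖ ≤ ‖q‖ * ‖x‖ := by
  have h := norm_pr_sq q x
  have h2 : ‖pr q x‖ ^ 2 ≤ (‖q‖ * ‖x‖) ^ 2 := by
    rw [h, mul_pow]
    linarith [sq_nonneg (inner ℝ x q)]
  exact le_of_sq_le_sq h2 (by positivity)

theorem pr_map {d : ℕ} (U : Eu d ≃ₗᵢ[ℝ] Eu d) (q x : Eu d) : pr (U q) (U x) = U (pr q x) := by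
  unfold pr
  rw [U.norm_map, U.inner_map_map, map_sub, map_smul, map_smul]

theorem measurable_pr {d : ℕ} : Measurable (fun p : Eu d × Eu d => pr p.1 p.2) := by
  unfold pr
  fun_prop

theorem integrable_norm (d : ℕ) : Integrable (fun q : Eu d => ‖q‖) (stdGaussian (Eu d)) :=
  (IsGaussian.integrable_id (μ := stdGaussian (Eu d))).norm

/-- The mean norm of the standard Gaussian vector is positive in positive dimension. -/
theorem integral_norm_pos (d : ℕ) (hd : 1 ≤ d) : 0 < ∫ q, ‖q‖ ∂(stdGaussian (Eu d)) := by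
  rw [Vale.Agent.Lib.P226.H97.integral_norm_stdGaussian d hd]
  have hd0 : (0 : ℝ) < d := by exact_mod_cast hd
  have h1 : 0 < Real.Gamma ((d : ℝ) / 2 + 1) := Real.Gamma_pos_of_pos (by positivity)
  have h2 : 0 < Real.Gamma (((d : ℝ) + 1) / 2) := Real.Gamma_pos_of_pos (by positivity)
  have h3 : 0 < Real.sqrt Real.pi := Real.sqrt_pos.2 Real.pi_pos
  have h4 : (0 : ℝ) < (2 * Real.pi) ^ (-(d : ℝ) / 2) := Real.rpow_pos_of_pos (by positivity) _
  have h5 : (0 : ℝ) < (1 / 2 : ℝ) ^ (-((d : ℝ) + 1) / 2) := Real.rpow_pos_of_pos (by norm_num) _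
  positivity

theorem integrable_prod_bound (d : ℕ) (f : Eu d × Eu d → ℝ) (hm : Measurable f) (C : ℝ)
    (hb : ∀ p, |f p| ≤ C * (‖p.1‖ * ‖p.2‖)) :
    Integrable f ((stdGaussian (Eu d)).prod (stdGaussian (Eu d))) := by
  have h3 : Integrable (fun p : Eu d × Eu d => C * (‖p.1‖ * ‖p.2‖))
      ((stdGaussian (Eu d)).prod (stdGaussian (Eu d))) :=
    ((integrable_norm d).mul_prod (integrable_norm d)).const_mul _
  refine Integrable.mono' h3 hm.aestronglyMeasurable ?_
  filter_upwards with p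
  rw [Real.norm_eq_abs]
  exact hb p

theorem integrable_hsup_pr {d m : ℕ} (z : Fin (m + 1) → Eu d) :
    Integrable (fun p : Eu d × Eu d => hsup z (pr p.1 p.2))
      ((stdGaussian (Eu d)).prod (stdGaussian (Eu d))) := by
  refine integrable_prod_bound d _ ((continuous_hsup z).measurable.comp measurable_pr)
    (∑ i, ‖z i‖) (fun p => ?_)
  calc |hsup z (pr p.1 p.2)| ≤ (∑ i, ‖z i‖) * ‖pr p.1 p.2‖ := abs_hsup_le _ _
    _ ≤ (∑ i, ‖z i‖) * (‖p.1‖ * ‖p.2‖) :=
      mul_le_mul_of_nonneg_left (norm_pr_le _ _) (Finset.sum_nonneg (fun i _ => norm_nonneg _))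

theorem integrable_norm_pr (d : ℕ) :
    Integrable (fun p : Eu d × Eu d => ‖pr p.1 p.2‖)
      ((stdGaussian (Eu d)).prod (stdGaussian (Eu d))) := by
  refine integrable_prod_bound d _ (measurable_norm.comp measurable_pr) 1 (fun p => ?_)
  rw [abs_norm, one_mul]
  exact norm_pr_le _ _

/-- For `q ≠ 0`, `pr q x` in terms of the hyperplane coordinates `L`. -/
theorem pr_eq_adjoint {d : ℕ} (q : Eu (d + 1)) (hq : q ≠ 0)
    (L : Eu (d + 1) →L[ℝ] Eu d)
    (hL : ∀ x, ContinuousLinearMap.adjoint L (L x) = x - (inner ℝ x q / ‖q‖ ^ 2) • q)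
    (x : Eu (d + 1)) : pr q x = ‖q‖ • ContinuousLinearMap.adjoint L (L x) := by
  have hn : ‖q‖ ≠ 0 := norm_ne_zero_iff.2 hq
  rw [hL, pr, smul_sub, smul_smul]
  congr 2
  field_simp

theorem integral_norm_pr (d : ℕ) (q : Eu (d + 1)) :
    ∫ x, ‖pr q x‖ ∂(stdGaussian (Eu (d + 1))) = ‖q‖ * ∫ y, ‖y‖ ∂(stdGaussian (Eu d)) := by
  by_cases hq : q = 0
  · subst hq
    simp [pr_zero_left]
  · obtain ⟨L, hL1, hL2, hL3, -⟩ := H85.exists_hyperplane_coisometry d q hq
    have h : ∀ x, ‖pr q x‖ = ‖q‖ * ‖L x‖ := by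
      intro x
      rw [pr_eq_adjoint q hq L hL3, norm_smul, norm_norm, hL2]
    simp_rw [h]
    rw [integral_const_mul, ← hL1,
      integral_map L.continuous.measurable.aemeasurable continuous_norm.aestronglyMeasurable]

theorem pointwise_bound (d m : ℕ) (z : Fin (m + 1) → Eu (d + 1)) (q : Eu (d + 1)) :
    ∃ V : Fin (m + 1) → Set (Eu d), (∀ i, MeasurableSet (V i)) ∧
      (∀ i j, i ≠ j → Disjoint (V i) (V j)) ∧ ⋃ i, V i = Set.univ ∧
      ∫ x, hsup z (pr q x) ∂(stdGaussian (Eu (d + 1)))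
        ≤ Real.sqrt (∑ i, ‖∫ y in V i, y ∂(stdGaussian (Eu d))‖ ^ 2)
          * Real.sqrt (∑ i, (‖q‖ ^ 2 * ‖z i‖ ^ 2 - inner ℝ q (z i) ^ 2)) := by
  by_cases hq : q = 0
  · obtain ⟨V, hV1, hV2, hV3, -⟩ := H5.exists_partition_integral_sup_le d m (fun _ => 0)
    refine ⟨V, hV1, hV2, hV3, ?_⟩
    subst hq
    simp only [pr_zero_left, hsup_zero, integral_zero]
    positivity
  · obtain ⟨L, hL1, hL2, hL3, hL4⟩ := H85.exists_hyperplane_coisometry d q hq
    have hn : ‖q‖ ≠ 0 := norm_ne_zero_iff.2 hq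
    obtain ⟨V, hV1, hV2, hV3, hV4⟩ :=
      H5.exists_partition_integral_sup_le d m (fun i => ‖q‖ • L (z i))
    refine ⟨V, hV1, hV2, hV3, ?_⟩
    have h1 : ∀ x, hsup z (pr q x) = hsup (fun i => ‖q‖ • L (z i)) (L x) := by
      intro x
      unfold hsup
      refine Finset.sup'_congr _ rfl (fun i _ => ?_)
      rw [pr_eq_adjoint q hq L hL3, real_inner_smul_left, real_inner_smul_right,
        ContinuousLinearMap.adjoint_inner_left]
    have h2 : ∫ x, hsup z (pr q x) ∂(stdGaussian (Eu (d + 1)))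
        = ∫ y, hsup (fun i => ‖q‖ • L (z i)) y ∂(stdGaussian (Eu d)) := by
      simp_rw [h1]
      rw [← hL1, integral_map L.continuous.measurable.aemeasurable
        (continuous_hsup _).aestronglyMeasurable]
    have h3 : ∑ i, ‖‖q‖ • L (z i)‖ ^ 2 = ∑ i, (‖q‖ ^ 2 * ‖z i‖ ^ 2 - inner ℝ q (z i) ^ 2) := by
      refine Finset.sum_congr rfl (fun i _ => ?_)
      rw [norm_smul, norm_norm, mul_pow, hL4, real_inner_comm]
      field_simp
    rw [h2, ← h3]
    exact hV4

/-- The law of `pr q x` for independent standard Gaussian `q`, `x`. -/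
noncomputable def prLaw (d : ℕ) : Measure (Eu d) :=
  ((stdGaussian (Eu d)).prod (stdGaussian (Eu d))).map (fun p => pr p.1 p.2)

theorem prLaw_map (d : ℕ) (U : Eu d ≃ₗᵢ[ℝ] Eu d) : (prLaw d).map U = prLaw d := by
  have hU : Measurable (U : Eu d → Eu d) := U.continuous.measurable
  unfold prLaw
  rw [Measure.map_map hU measurable_pr]
  have hfun : (U : Eu d → Eu d) ∘ (fun p : Eu d × Eu d => pr p.1 p.2)
      = (fun p : Eu d × Eu d => pr p.1 p.2) ∘ (Prod.map U U) := by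
    funext p
    simp [pr_map]
  rw [hfun, ← Measure.map_map measurable_pr (hU.prodMap hU), ← Measure.map_prod_map _ _ hU hU,
    stdGaussian_map U]

/-- The key identity: `E_q E_x h(pr q x) = E|g_d| * E h(g_(d+1))`. -/
theorem key_identity (d m : ℕ) (z : Fin (m + 1) → Eu (d + 1)) :
    ∫ q, (∫ x, hsup z (pr q x) ∂(stdGaussian (Eu (d + 1)))) ∂(stdGaussian (Eu (d + 1)))
      = (∫ y, ‖y‖ ∂(stdGaussian (Eu d))) * ∫ x, hsup z x ∂(stdGaussian (Eu (d + 1))) := by
  have : IsProbabilityMeasure (prLaw (d + 1)) :=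
    Measure.isProbabilityMeasure_map measurable_pr.aemeasurable
  have hintn : Integrable (fun w : Eu (d + 1) => ‖w‖) (prLaw (d + 1)) := by
    unfold prLaw
    rw [integrable_map_measure continuous_norm.aestronglyMeasurable measurable_pr.aemeasurable]
    exact integrable_norm_pr (d + 1)
  have key := H96.invariant_integral_hom (prLaw (d + 1)) (prLaw_map (d + 1)) hintn (hsup z)
    (continuous_hsup z).measurable (fun t ht x => hsup_smul z t ht x) (∑ i, ‖z i‖)
    (abs_hsup_le z)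
  have e1 : ∫ w, hsup z w ∂(prLaw (d + 1))
      = ∫ q, (∫ x, hsup z (pr q x) ∂(stdGaussian (Eu (d + 1)))) ∂(stdGaussian (Eu (d + 1))) := by
    unfold prLaw
    rw [integral_map measurable_pr.aemeasurable (continuous_hsup z).aestronglyMeasurable,
      integral_prod _ (integrable_hsup_pr z)]
  have e2 : ∫ w, ‖w‖ ∂(prLaw (d + 1))
      = (∫ q, ‖q‖ ∂(stdGaussian (Eu (d + 1)))) * ∫ y, ‖y‖ ∂(stdGaussian (Eu d)) := by
    have hp := integral_prod (fun p : Eu (d + 1) × Eu (d + 1) => ‖pr p.1 p.2‖)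
      (integrable_norm_pr (d + 1))
    unfold prLaw
    rw [integral_map measurable_pr.aemeasurable continuous_norm.aestronglyMeasurable, hp]
    simp_rw [integral_norm_pr]
    rw [integral_mul_const]
  rw [e1, e2] at key
  have hpos := integral_norm_pos (d + 1) (by omega)
  have key2 : (∫ q, ‖q‖ ∂(stdGaussian (Eu (d + 1))))
      * ∫ q, (∫ x, hsup z (pr q x) ∂(stdGaussian (Eu (d + 1)))) ∂(stdGaussian (Eu (d + 1)))
      = (∫ q, ‖q‖ ∂(stdGaussian (Eu (d + 1))))
        * ((∫ y, ‖y‖ ∂(stdGaussian (Eu d))) * ∫ x, hsup z x ∂(stdGaussian (Eu (d + 1)))) := by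
    rw [key]
    ring
  exact mul_left_cancel₀ hpos.ne' key2

end Vale.Agent.Lib.P226.H97G
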