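import Mathlib
import Vale.Agent.Lib.P226.helper35.ProjC
import Vale.Agent.Lib.P226.helper18.VarBound
import Vale.Agent.Lib.P226.helper17.SecondMoment
import Vale.Agent.Lib.P226.H97.GenA

open MeasureTheory ProbabilityTheory

namespace Vale.Agent.Lib.P226.H97G

open Vale.Agent.Lib.P226.H35P (hsup le_hsup hsup_smul hsup_zero abs_hsup_le continuous_hsup
  amgm_aux)

/-- `S(q) = ∑ (|q|²|z_i|² - <q,z_i>²)`. -/
noncomputable def ssum {d m : ℕ} (z : Fin (m + 1) → Eu d) (q : Eu d) : ℝ :=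
  ∑ i, (‖q‖ ^ 2 * ‖z i‖ ^ 2 - inner ℝ q (z i) ^ 2)

theorem inner_sq_le {d : ℕ} (q z : Eu d) : inner ℝ q z ^ 2 ≤ ‖q‖ ^ 2 * ‖z‖ ^ 2 := by
  have h := abs_real_inner_le_norm q z
  have h2 : |inner ℝ q z| ^ 2 ≤ (‖q‖ * ‖z‖) ^ 2 := pow_le_pow_left₀ (abs_nonneg _) h 2
  rw [sq_abs] at h2
  linarith [mul_pow ‖q‖ ‖z‖ 2]

theorem ssum_nonneg {d m : ℕ} (z : Fin (m + 1) → Eu d) (q : Eu d) : 0 ≤ ssum z q :=
  Finset.sum_nonneg (fun i _ => sub_nonneg.2 (inner_sq_le q (z i)))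

theorem ssum_le {d m : ℕ} (z : Fin (m + 1) → Eu d) (q : Eu d) :
    ssum z q ≤ ‖q‖ ^ 2 * ∑ i, ‖z i‖ ^ 2 := by
  unfold ssum
  rw [Finset.mul_sum]
  exact Finset.sum_le_sum (fun i _ => by linarith [sq_nonneg (inner ℝ q (z i))])

theorem ssum_zero {d m : ℕ} (z : Fin (m + 1) → Eu d) : ssum z (0 : Eu d) = 0 := by
  simp [ssum]

theorem measurable_ssum {d m : ℕ} (z : Fin (m + 1) → Eu d) : Measurable (ssum z) := by
  unfold ssum
  fun_prop

theorem integrable_of_bound {d : ℕ} (f : Eu d → ℝ) (hm : Measurable f) (C : ℝ)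
    (hb : ∀ q, |f q| ≤ C * ‖q‖) : Integrable f (stdGaussian (Eu d)) := by
  refine Integrable.mono' ((integrable_norm d).const_mul C) hm.aestronglyMeasurable ?_
  filter_upwards with q
  rw [Real.norm_eq_abs]
  exact hb q

theorem integrable_sqrt_ssum {d m : ℕ} (z : Fin (m + 1) → Eu d) :
    Integrable (fun q : Eu d => Real.sqrt (ssum z q)) (stdGaussian (Eu d)) := by
  refine integrable_of_bound _ (measurable_ssum z).sqrt (Real.sqrt (∑ i, ‖z i‖ ^ 2))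
    (fun q => ?_)
  rw [abs_of_nonneg (Real.sqrt_nonneg _)]
  calc Real.sqrt (ssum z q) ≤ Real.sqrt (‖q‖ ^ 2 * ∑ i, ‖z i‖ ^ 2) :=
        Real.sqrt_le_sqrt (ssum_le z q)
    _ = Real.sqrt (∑ i, ‖z i‖ ^ 2) * ‖q‖ := by
        rw [Real.sqrt_mul (sq_nonneg _), Real.sqrt_sq (norm_nonneg _), mul_comm]

theorem sq_div_norm_le {d : ℕ} (a : ℝ) (q z : Eu d) (ha0 : 0 ≤ a)
    (ha : a ≤ ‖q‖ ^ 2 * ‖z‖ ^ 2) : |a / ‖q‖| ≤ ‖z‖ ^ 2 * ‖q‖ := by
  rw [abs_div, abs_norm, abs_of_nonneg ha0]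
  by_cases hq : q = 0
  · subst hq
    simp
  · have hq' : 0 < ‖q‖ := norm_pos_iff.2 hq
    rw [div_le_iff₀ hq']
    nlinarith

theorem integrable_term {d : ℕ} (z : Eu d) :
    Integrable (fun q : Eu d => (‖q‖ ^ 2 * ‖z‖ ^ 2 - inner ℝ q z ^ 2) / ‖q‖)
      (stdGaussian (Eu d)) :=
  integrable_of_bound _ (by fun_prop) (‖z‖ ^ 2)
    (fun q => sq_div_norm_le _ q z (sub_nonneg.2 (inner_sq_le q z))
      (by linarith [sq_nonneg (inner ℝ q z)]))

theorem integrable_sq_div {d : ℕ} (z : Eu d) :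
    Integrable (fun q : Eu d => inner ℝ q z ^ 2 / ‖q‖) (stdGaussian (Eu d)) :=
  integrable_of_bound _ (by fun_prop) (‖z‖ ^ 2)
    (fun q => sq_div_norm_le _ q z (sq_nonneg _) (inner_sq_le q z))

/-- `E[(|q|²|z|² - <q,z>²)/|q|] = (d/(d+1)) |z|² E|q|` in `ℝ^(d+1)`. -/
theorem integral_term (d : ℕ) (z : Eu (d + 1)) :
    ∫ q, (‖q‖ ^ 2 * ‖z‖ ^ 2 - inner ℝ q z ^ 2) / ‖q‖ ∂(stdGaussian (Eu (d + 1)))
      = (d : ℝ) / ((d : ℝ) + 1) * ‖z‖ ^ 2 * ∫ q, ‖q‖ ∂(stdGaussian (Eu (d + 1))) := by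
  have h : ∀ q : Eu (d + 1), (‖q‖ ^ 2 * ‖z‖ ^ 2 - inner ℝ q z ^ 2) / ‖q‖
      = ‖z‖ ^ 2 * ‖q‖ - inner ℝ q z ^ 2 / ‖q‖ := by
    intro q
    by_cases hq : q = 0
    · subst hq
      simp
    · have := norm_ne_zero_iff.2 hq
      field_simp
  simp_rw [h]
  rw [integral_sub ((integrable_norm (d + 1)).const_mul _) (integrable_sq_div z),
    integral_const_mul, H17.integral_inner_sq_div_norm d z]
  have hd : ((d : ℝ) + 1) ≠ 0 := by positivity
  field_simp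
  ring

/-- `E sqrt(S(q)) ≤ sqrt(d F/(d+1)) E|q|`. -/
theorem integral_sqrt_ssum_le (d : ℕ) (hd : 1 ≤ d) {m : ℕ} (z : Fin (m + 1) → Eu (d + 1))
    (hF : 0 < ∑ i, ‖z i‖ ^ 2) :
    ∫ q, Real.sqrt (ssum z q) ∂(stdGaussian (Eu (d + 1)))
      ≤ Real.sqrt ((d : ℝ) / ((d : ℝ) + 1) * ∑ i, ‖z i‖ ^ 2)
        * ∫ q, ‖q‖ ∂(stdGaussian (Eu (d + 1))) := by
  have hd0 : (0 : ℝ) < d := by exact_mod_cast hd
  set F := ∑ i, ‖z i‖ ^ 2 with hFdef
  set lam := Real.sqrt ((d : ℝ) / ((d : ℝ) + 1) * F) with hlamdef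
  have hlam : 0 < lam := Real.sqrt_pos.2 (by positivity)
  have hlam2 : lam ^ 2 = (d : ℝ) / ((d : ℝ) + 1) * F := Real.sq_sqrt (by positivity)
  have hpt : ∀ q : Eu (d + 1), Real.sqrt (ssum z q)
      ≤ lam / 2 * ‖q‖ + 1 / (2 * lam)
        * ∑ i, (‖q‖ ^ 2 * ‖z i‖ ^ 2 - inner ℝ q (z i) ^ 2) / ‖q‖ := by
    intro q
    by_cases hq : q = 0
    · subst hq
      simp [ssum_zero]
    · have ha : 0 < ‖q‖ := norm_pos_iff.2 hq
      rw [← Finset.sum_div]
      exact amgm_aux lam ‖q‖ _ hlam ha (ssum_nonneg z q)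
  have hint : Integrable (fun q : Eu (d + 1) => lam / 2 * ‖q‖
      + 1 / (2 * lam) * ∑ i, (‖q‖ ^ 2 * ‖z i‖ ^ 2 - inner ℝ q (z i) ^ 2) / ‖q‖)
      (stdGaussian (Eu (d + 1))) :=
    ((integrable_norm (d + 1)).const_mul _).add
      ((integrable_finsetSum _ (fun i _ => integrable_term (z i))).const_mul _)
  calc ∫ q, Real.sqrt (ssum z q) ∂(stdGaussian (Eu (d + 1)))
      ≤ ∫ q, (lam / 2 * ‖q‖ + 1 / (2 * lam)
          * ∑ i, (‖q‖ ^ 2 * ‖z i‖ ^ 2 - inner ℝ q (z i) ^ 2) / ‖q‖)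
          ∂(stdGaussian (Eu (d + 1))) :=
        integral_mono_of_nonneg (Filter.Eventually.of_forall (fun q => Real.sqrt_nonneg _)) hint
          (Filter.Eventually.of_forall hpt)
    _ = lam / 2 * ∫ q, ‖q‖ ∂(stdGaussian (Eu (d + 1)))
        + 1 / (2 * lam) * ∑ i, ((d : ℝ) / ((d : ℝ) + 1) * ‖z i‖ ^ 2
          * ∫ q, ‖q‖ ∂(stdGaussian (Eu (d + 1)))) := by
        rw [integral_add ((integrable_norm (d + 1)).const_mul _)
          ((integrable_finsetSum _ (fun i _ => integrable_term (z i))).const_mul _),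
          integral_const_mul, integral_const_mul,
          integral_finsetSum _ (fun i _ => integrable_term (z i))]
        simp_rw [integral_term]
    _ = lam * ∫ q, ‖q‖ ∂(stdGaussian (Eu (d + 1))) := by
        rw [← Finset.sum_mul, ← Finset.mul_sum, ← hFdef, ← hlam2]
        field_simp
        ring

/-- One-step projection bound: a measurable partition `A` of `ℝ^(d+1)` into `n` cells has a
measurable partition `B` of `ℝ^d` into `n` cells with
`(d+1) (E|g_d|)² F(A) ≤ d (E|g_(d+1)|)² F(B)`. -/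
theorem one_step (d : ℕ) (hd : 1 ≤ d) (n : ℕ) (A : Fin n → Set (Eu (d + 1)))
    (hA : ∀ i, MeasurableSet (A i)) (hdisj : ∀ i j, i ≠ j → Disjoint (A i) (A j))
    (hcover : ⋃ i, A i = Set.univ) :
    ∃ B : Fin n → Set (Eu d), (∀ i, MeasurableSet (B i)) ∧
      (∀ i j, i ≠ j → Disjoint (B i) (B j)) ∧ ⋃ i, B i = Set.univ ∧
      ((d : ℝ) + 1) * (∫ y, ‖y‖ ∂(stdGaussian (Eu d))) ^ 2
          * ∑ i, ‖∫ x in A i, x ∂(stdGaussian (Eu (d + 1)))‖ ^ 2
        ≤ (d : ℝ) * (∫ q, ‖q‖ ∂(stdGaussian (Eu (d + 1)))) ^ 2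
          * ∑ i, ‖∫ x in B i, x ∂(stdGaussian (Eu d))‖ ^ 2 := by
  rcases n with _ | m
  · exfalso
    have h : (⋃ i, A i) = ∅ := Set.iUnion_of_empty A
    rw [h] at hcover
    exact Set.empty_ne_univ hcover
  have hd0 : (0 : ℝ) < d := by exact_mod_cast hd
  set a := ∫ y, ‖y‖ ∂(stdGaussian (Eu d)) with hadef
  set a' := ∫ q, ‖q‖ ∂(stdGaussian (Eu (d + 1))) with ha'def
  have ha : 0 < a := integral_norm_pos d hd
  have ha' : 0 < a' := integral_norm_pos (d + 1) (by omega)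
  set z : Fin (m + 1) → Eu (d + 1) := fun i => ∫ x in A i, x ∂(stdGaussian (Eu (d + 1))) with hz
  set F := ∑ i, ‖z i‖ ^ 2 with hFdef
  by_contra hcon
  push Not at hcon
  have hFnn : 0 ≤ F := Finset.sum_nonneg (fun i _ => sq_nonneg _)
  have hFpos : 0 < F := by
    obtain ⟨V, hV1, hV2, hV3, -⟩ := H5.exists_partition_integral_sup_le d m (fun _ => 0)
    have h1 := hcon V hV1 hV2 hV3
    have h0 : 0 ≤ (d : ℝ) * a' ^ 2 * ∑ i, ‖∫ x in V i, x ∂(stdGaussian (Eu d))‖ ^ 2 := by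
      positivity
    rcases hFnn.lt_or_eq with h | h
    · exact h
    · exfalso
      rw [← h, mul_zero] at h1
      linarith
  set lam := Real.sqrt ((d : ℝ) / ((d : ℝ) + 1) * F) with hlamdef
  have hlam : 0 < lam := Real.sqrt_pos.2 (by positivity)
  have hlam2 : lam ^ 2 = (d : ℝ) / ((d : ℝ) + 1) * F := Real.sq_sqrt (by positivity)
  set C := a * F / (lam * a') with hCdef
  have hC : 0 < C := by positivity
  have hC2 : C ^ 2 = ((d : ℝ) + 1) * a ^ 2 * F / ((d : ℝ) * a' ^ 2) := by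
    rw [hCdef, div_pow, mul_pow, mul_pow, hlam2]
    field_simp
  have hClam : C * (lam * a') = a * F := by
    rw [hCdef]
    field_simp
  -- pointwise bounds
  have hpt : ∀ q : Eu (d + 1),
      (∫ x, hsup z (pr q x) ∂(stdGaussian (Eu (d + 1)))) ≤ C * Real.sqrt (ssum z q) ∧
      (0 < ssum z q →
        (∫ x, hsup z (pr q x) ∂(stdGaussian (Eu (d + 1)))) < C * Real.sqrt (ssum z q)) := by
    intro q
    obtain ⟨V, hV1, hV2, hV3, hV4⟩ := pointwise_bound d m z q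
    have hlt := hcon V hV1 hV2 hV3
    have hsq : Real.sqrt (∑ i, ‖∫ x in V i, x ∂(stdGaussian (Eu d))‖ ^ 2) < C := by
      rw [Real.sqrt_lt' hC, hC2, lt_div_iff₀ (by positivity)]
      linarith
    constructor
    · exact hV4.trans (mul_le_mul_of_nonneg_right hsq.le (Real.sqrt_nonneg _))
    · intro hSpos
      exact hV4.trans_lt (mul_lt_mul_of_pos_right hsq (Real.sqrt_pos.2 hSpos))
  have hu_int : Integrable (fun q : Eu (d + 1) => ∫ x, hsup z (pr q x) ∂(stdGaussian (Eu (d + 1))))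
      (stdGaussian (Eu (d + 1))) := (integrable_hsup_pr z).integral_prod_left
  have hS_int := integrable_sqrt_ssum z
  have h1 : a * F ≤ ∫ q, (∫ x, hsup z (pr q x) ∂(stdGaussian (Eu (d + 1))))
      ∂(stdGaussian (Eu (d + 1))) := by
    rw [key_identity]
    exact mul_le_mul_of_nonneg_left (H18.sum_sq_le_integral_sup (d + 1) m A hA hdisj hcover)
      ha.le
  have h2 : ∫ q, Real.sqrt (ssum z q) ∂(stdGaussian (Eu (d + 1))) ≤ lam * a' :=
    integral_sqrt_ssum_le d hd z hFpos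
  have hw_nonneg : ∀ q : Eu (d + 1), 0 ≤ C * Real.sqrt (ssum z q)
      - ∫ x, hsup z (pr q x) ∂(stdGaussian (Eu (d + 1))) := fun q => sub_nonneg.2 (hpt q).1
  have hw_int : Integrable (fun q : Eu (d + 1) => C * Real.sqrt (ssum z q)
      - ∫ x, hsup z (pr q x) ∂(stdGaussian (Eu (d + 1)))) (stdGaussian (Eu (d + 1))) :=
    (hS_int.const_mul C).sub hu_int
  have hw_le : ∫ q, (C * Real.sqrt (ssum z q)
      - ∫ x, hsup z (pr q x) ∂(stdGaussian (Eu (d + 1)))) ∂(stdGaussian (Eu (d + 1))) ≤ 0 := by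
    rw [integral_sub (hS_int.const_mul C) hu_int, integral_const_mul]
    have := mul_le_mul_of_nonneg_left h2 hC.le
    linarith
  have hw0 : ∫ q, (C * Real.sqrt (ssum z q)
      - ∫ x, hsup z (pr q x) ∂(stdGaussian (Eu (d + 1)))) ∂(stdGaussian (Eu (d + 1))) = 0 :=
    le_antisymm hw_le (integral_nonneg hw_nonneg)
  have hae := (integral_eq_zero_iff_of_nonneg hw_nonneg hw_int).1 hw0
  have hS0 : (fun q : Eu (d + 1) => Real.sqrt (ssum z q)) =ᵐ[stdGaussian (Eu (d + 1))] 0 := by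
    filter_upwards [hae] with q hq
    by_contra hne
    have hSpos : 0 < ssum z q := by
      rcases (ssum_nonneg z q).lt_or_eq with h | h
      · exact h
      · exfalso
        apply hne
        rw [← h]
        simp
    have h3 := (hpt q).2 hSpos
    have h4 : C * Real.sqrt (ssum z q)
        - ∫ x, hsup z (pr q x) ∂(stdGaussian (Eu (d + 1))) = 0 := hq
    linarith
  have hint0 : ∫ q, Real.sqrt (ssum z q) ∂(stdGaussian (Eu (d + 1))) = 0 := by
    rw [integral_congr_ae hS0]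
    simp
  have h5 : ∫ q, (∫ x, hsup z (pr q x) ∂(stdGaussian (Eu (d + 1)))) ∂(stdGaussian (Eu (d + 1)))
      ≤ C * ∫ q, Real.sqrt (ssum z q) ∂(stdGaussian (Eu (d + 1))) := by
    rw [← integral_const_mul]
    exact integral_mono hu_int (hS_int.const_mul C) (fun q => (hpt q).1)
  rw [hint0, mul_zero] at h5
  have h6 : 0 < a * F := by positivity
  linarith

end Vale.Agent.Lib.P226.H97G
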