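import Mathlib
import Vale.Agent.Lib.P226.H97.GenB

open MeasureTheory ProbabilityTheory

namespace Vale.Agent.Lib.P226.H97G

/-- Iterating the one-step bound down to dimension three:
`d (E|g_3|)² F(A) ≤ 3 (E|g_d|)² F(B)`. -/
theorem to_three (d : ℕ) (hd : 3 ≤ d) :
    ∀ (n : ℕ) (A : Fin n → Set (Eu d)), (∀ i, MeasurableSet (A i)) →
      (∀ i j, i ≠ j → Disjoint (A i) (A j)) → ⋃ i, A i = Set.univ →
      ∃ B : Fin n → Set (Eu 3), (∀ i, MeasurableSet (B i)) ∧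
        (∀ i j, i ≠ j → Disjoint (B i) (B j)) ∧ ⋃ i, B i = Set.univ ∧
        (d : ℝ) * (∫ y, ‖y‖ ∂(stdGaussian (Eu 3))) ^ 2
            * ∑ i, ‖∫ x in A i, x ∂(stdGaussian (Eu d))‖ ^ 2
          ≤ 3 * (∫ x, ‖x‖ ∂(stdGaussian (Eu d))) ^ 2
            * ∑ i, ‖∫ x in B i, x ∂(stdGaussian (Eu 3))‖ ^ 2 := by
  induction d, hd using Nat.le_induction with
  | base =>
    intro n A hA hdisj hc
    exact ⟨A, hA, hdisj, hc, le_of_eq (by push_cast; ring)⟩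
  | succ d hd ih =>
    intro n A hA hdisj hc
    obtain ⟨B', hB1, hB2, hB3, hB4⟩ := one_step d (by omega) n A hA hdisj hc
    obtain ⟨B, hC1, hC2, hC3, hC4⟩ := ih n B' hB1 hB2 hB3
    refine ⟨B, hC1, hC2, hC3, ?_⟩
    have ha : 0 < ∫ y, ‖y‖ ∂(stdGaussian (Eu d)) := integral_norm_pos d (by omega)
    set a := ∫ y, ‖y‖ ∂(stdGaussian (Eu d)) with hadef
    set a' := ∫ q, ‖q‖ ∂(stdGaussian (Eu (d + 1))) with ha'def
    set a3 := ∫ y, ‖y‖ ∂(stdGaussian (Eu 3)) with ha3def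
    set FA := ∑ i, ‖∫ x in A i, x ∂(stdGaussian (Eu (d + 1)))‖ ^ 2 with hFA
    set FB' := ∑ i, ‖∫ x in B' i, x ∂(stdGaussian (Eu d))‖ ^ 2 with hFB'
    set FB := ∑ i, ‖∫ x in B i, x ∂(stdGaussian (Eu 3))‖ ^ 2 with hFB
    have h1 : a3 ^ 2 * (((d : ℝ) + 1) * a ^ 2 * FA) ≤ a3 ^ 2 * ((d : ℝ) * a' ^ 2 * FB') :=
      mul_le_mul_of_nonneg_left hB4 (sq_nonneg _)
    have h2 : a' ^ 2 * ((d : ℝ) * a3 ^ 2 * FB') ≤ a' ^ 2 * (3 * a ^ 2 * FB) :=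
      mul_le_mul_of_nonneg_left hC4 (sq_nonneg _)
    have h3 : a ^ 2 * (((d : ℝ) + 1) * a3 ^ 2 * FA) ≤ a ^ 2 * (3 * a' ^ 2 * FB) := by
      nlinarith
    have h4 := le_of_mul_le_mul_left h3 (by positivity : (0 : ℝ) < a ^ 2)
    push_cast
    exact h4

/-- Closed form of the mean norm: `E|g_d| = sqrt 2 * Gamma((d+1)/2) / Gamma(d/2)`. -/
theorem integral_norm_gamma (d : ℕ) (hd : 1 ≤ d) :
    ∫ x, ‖x‖ ∂(stdGaussian (Eu d))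
      = Real.sqrt 2 * Real.Gamma (((d : ℝ) + 1) / 2) / Real.Gamma ((d : ℝ) / 2) := by
  rw [Vale.Agent.Lib.P226.H97.integral_norm_stdGaussian d hd]
  have hd0 : (0 : ℝ) < d := by exact_mod_cast hd
  have hpi := Real.pi_pos
  have hG : Real.Gamma ((d : ℝ) / 2 + 1) = (d : ℝ) / 2 * Real.Gamma ((d : ℝ) / 2) :=
    Real.Gamma_add_one (by positivity)
  have hG0 : 0 < Real.Gamma ((d : ℝ) / 2) := Real.Gamma_pos_of_pos (by positivity)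
  have hP : Real.sqrt Real.pi ^ d = Real.pi ^ ((d : ℝ) / 2) := by
    rw [Real.sqrt_eq_rpow, ← Real.rpow_natCast, ← Real.rpow_mul hpi.le]
    congr 1
    ring
  have hQ : (2 * Real.pi) ^ (-(d : ℝ) / 2)
      = (2 : ℝ) ^ (-(d : ℝ) / 2) * Real.pi ^ (-(d : ℝ) / 2) :=
    Real.mul_rpow (by norm_num) hpi.le
  have hR : (1 / 2 : ℝ) ^ (-((d : ℝ) + 1) / 2) = (2 : ℝ) ^ (((d : ℝ) + 1) / 2) := by
    rw [one_div, Real.inv_rpow (by norm_num), ← Real.rpow_neg (by norm_num)]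
    congr 1
    ring
  have hPP : Real.pi ^ ((d : ℝ) / 2) * Real.pi ^ (-(d : ℝ) / 2) = 1 := by
    rw [← Real.rpow_add hpi]
    have : (d : ℝ) / 2 + -(d : ℝ) / 2 = 0 := by ring
    rw [this, Real.rpow_zero]
  have hTT : (2 : ℝ) ^ (-(d : ℝ) / 2) * (2 : ℝ) ^ (((d : ℝ) + 1) / 2) = Real.sqrt 2 := by
    rw [← Real.rpow_add (by norm_num), Real.sqrt_eq_rpow]
    congr 1
    ring
  rw [hG, hP, hQ, hR]
  have e : (d : ℝ) * (Real.pi ^ ((d : ℝ) / 2) / ((d : ℝ) / 2 * Real.Gamma ((d : ℝ) / 2)))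
      * ((2 : ℝ) ^ (-(d : ℝ) / 2) * Real.pi ^ (-(d : ℝ) / 2)
        * ((2 : ℝ) ^ (((d : ℝ) + 1) / 2) * (1 / 2) * Real.Gamma (((d : ℝ) + 1) / 2)))
      = (Real.pi ^ ((d : ℝ) / 2) * Real.pi ^ (-(d : ℝ) / 2))
        * ((2 : ℝ) ^ (-(d : ℝ) / 2) * (2 : ℝ) ^ (((d : ℝ) + 1) / 2))
        * Real.Gamma (((d : ℝ) + 1) / 2) / Real.Gamma ((d : ℝ) / 2) := by
    field_simp
  rw [e, hPP, hTT, one_mul]

end Vale.Agent.Lib.P226.H97G
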