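import Mathlib
import Vale.Agent.Lib.P226.H97.GenC

open MeasureTheory ProbabilityTheory

namespace Vale.Agent.Lib.P226.H97G

/-- Projection bound in every dimension `d ≥ 3`, with the constant
`3 π / (4 d) * (Gamma((d+1)/2) / Gamma(d/2))²`. -/
theorem projection_gamma (d : ℕ) (hd : 3 ≤ d) (n : ℕ) (A : Fin n → Set (Eu d))
    (hA : ∀ i, MeasurableSet (A i)) (hdisj : ∀ i j, i ≠ j → Disjoint (A i) (A j))
    (hcover : ⋃ i, A i = Set.univ) :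
    ∃ B : Fin n → Set (Eu 3), (∀ i, MeasurableSet (B i)) ∧
      (∀ i j, i ≠ j → Disjoint (B i) (B j)) ∧ ⋃ i, B i = Set.univ ∧
      ∑ i, ‖∫ x in A i, x ∂(stdGaussian (Eu d))‖ ^ 2
        ≤ 3 * Real.pi / (4 * (d : ℝ))
          * (Real.Gamma (((d : ℝ) + 1) / 2) / Real.Gamma ((d : ℝ) / 2)) ^ 2
          * ∑ i, ‖∫ x in B i, x ∂(stdGaussian (Eu 3))‖ ^ 2 := by
  obtain ⟨B, hB1, hB2, hB3, hB4⟩ := to_three d hd n A hA hdisj hcover
  refine ⟨B, hB1, hB2, hB3, ?_⟩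
  have hd0 : (0 : ℝ) < d := by
    have : 0 < d := by omega
    exact_mod_cast this
  have hpi := Real.pi_pos
  have h3 : (∫ y, ‖y‖ ∂(stdGaussian (Eu 3))) ^ 2 = 8 / Real.pi := by
    have h := Vale.Agent.Lib.P226.H97.integral_norm_stdGaussian_three
    have hs := Vale.Agent.Lib.P226.H97.sqrt_two_pi_sq
    have hpos : 0 < Real.sqrt (2 * Real.pi) := Real.sqrt_pos.2 (by positivity)
    show (∫ y, ‖y‖ ∂(stdGaussian (EuclideanSpace ℝ (Fin 3)))) ^ 2 = 8 / Real.pi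
    rw [h, div_pow, hs]
    field_simp
    ring
  have hG1 : 0 < Real.Gamma (((d : ℝ) + 1) / 2) := Real.Gamma_pos_of_pos (by positivity)
  have hG2 : 0 < Real.Gamma ((d : ℝ) / 2) := Real.Gamma_pos_of_pos (by positivity)
  have hdd : (∫ x, ‖x‖ ∂(stdGaussian (Eu d))) ^ 2
      = 2 * (Real.Gamma (((d : ℝ) + 1) / 2) / Real.Gamma ((d : ℝ) / 2)) ^ 2 := by
    rw [integral_norm_gamma d (by omega), mul_div_assoc, mul_pow, Real.sq_sqrt (by norm_num)]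
  rw [h3, hdd] at hB4
  set FA := ∑ i, ‖∫ x in A i, x ∂(stdGaussian (Eu d))‖ ^ 2 with hFA
  set FB := ∑ i, ‖∫ x in B i, x ∂(stdGaussian (Eu 3))‖ ^ 2 with hFB
  set G := Real.Gamma (((d : ℝ) + 1) / 2) / Real.Gamma ((d : ℝ) / 2) with hG
  have e1 : (d : ℝ) * (8 / Real.pi) * FA = (8 * (d : ℝ) / Real.pi) * FA := by ring
  have e2 : 3 * Real.pi / (4 * (d : ℝ)) * G ^ 2 * FB
      = (Real.pi / (8 * (d : ℝ))) * (3 * (2 * G ^ 2) * FB) := by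
    field_simp
    ring
  rw [e2]
  have h5 := mul_le_mul_of_nonneg_left hB4 (by positivity : (0 : ℝ) ≤ Real.pi / (8 * (d : ℝ)))
  have e3 : Real.pi / (8 * (d : ℝ)) * ((d : ℝ) * (8 / Real.pi) * FA) = FA := by
    field_simp
  rw [e3] at h5
  exact h5

/-- The case `d = 4`: constant `27 π² / 256`. -/
theorem projection_four (n : ℕ) (A : Fin n → Set (Eu 4))
    (hA : ∀ i, MeasurableSet (A i)) (hdisj : ∀ i j, i ≠ j → Disjoint (A i) (A j))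
    (hcover : ⋃ i, A i = Set.univ) :
    ∃ B : Fin n → Set (Eu 3), (∀ i, MeasurableSet (B i)) ∧
      (∀ i j, i ≠ j → Disjoint (B i) (B j)) ∧ ⋃ i, B i = Set.univ ∧
      ∑ i, ‖∫ x in A i, x ∂(stdGaussian (Eu 4))‖ ^ 2
        ≤ 27 * Real.pi ^ 2 / 256 * ∑ i, ‖∫ x in B i, x ∂(stdGaussian (Eu 3))‖ ^ 2 := by
  obtain ⟨B, hB1, hB2, hB3, hB4⟩ := projection_gamma 4 (by norm_num) n A hA hdisj hcover
  refine ⟨B, hB1, hB2, hB3, ?_⟩
  have hpi := Real.pi_pos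
  have hg1 : Real.Gamma ((((4 : ℕ) : ℝ) + 1) / 2) = 3 / 4 * Real.sqrt Real.pi := by
    rw [show (((4 : ℕ) : ℝ) + 1) / 2 = 5 / 2 by norm_num]
    exact Vale.Agent.Lib.P226.H97.gamma_five_half
  have hg2 : Real.Gamma (((4 : ℕ) : ℝ) / 2) = 1 := by
    rw [show ((4 : ℕ) : ℝ) / 2 = 2 by norm_num]
    exact Real.Gamma_two
  rw [hg1, hg2] at hB4
  have e : 3 * Real.pi / (4 * ((4 : ℕ) : ℝ)) * (3 / 4 * Real.sqrt Real.pi / 1) ^ 2
      = 27 * Real.pi ^ 2 / 256 := by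
    rw [div_one, mul_pow, Real.sq_sqrt hpi.le]
    push_cast
    ring
  rw [e] at hB4
  exact hB4

/-- The case `d = 5`: constant `16 / 15`. -/
theorem projection_five (n : ℕ) (A : Fin n → Set (Eu 5))
    (hA : ∀ i, MeasurableSet (A i)) (hdisj : ∀ i j, i ≠ j → Disjoint (A i) (A j))
    (hcover : ⋃ i, A i = Set.univ) :
    ∃ B : Fin n → Set (Eu 3), (∀ i, MeasurableSet (B i)) ∧
      (∀ i j, i ≠ j → Disjoint (B i) (B j)) ∧ ⋃ i, B i = Set.univ ∧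
      ∑ i, ‖∫ x in A i, x ∂(stdGaussian (Eu 5))‖ ^ 2
        ≤ 16 / 15 * ∑ i, ‖∫ x in B i, x ∂(stdGaussian (Eu 3))‖ ^ 2 := by
  obtain ⟨B, hB1, hB2, hB3, hB4⟩ := projection_gamma 5 (by norm_num) n A hA hdisj hcover
  refine ⟨B, hB1, hB2, hB3, ?_⟩
  have hpi := Real.pi_pos
  have hsp : 0 < Real.sqrt Real.pi := Real.sqrt_pos.2 hpi
  have hg1 : Real.Gamma ((((5 : ℕ) : ℝ) + 1) / 2) = 2 := by
    rw [show (((5 : ℕ) : ℝ) + 1) / 2 = ((2 : ℕ) : ℝ) + 1 by norm_num,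
      Real.Gamma_nat_eq_factorial]
    norm_num [Nat.factorial]
  have hg2 : Real.Gamma (((5 : ℕ) : ℝ) / 2) = 3 / 4 * Real.sqrt Real.pi := by
    rw [show ((5 : ℕ) : ℝ) / 2 = 5 / 2 by norm_num]
    exact Vale.Agent.Lib.P226.H97.gamma_five_half
  rw [hg1, hg2] at hB4
  have e : 3 * Real.pi / (4 * ((5 : ℕ) : ℝ)) * (2 / (3 / 4 * Real.sqrt Real.pi)) ^ 2
      = 16 / 15 := by
    rw [div_pow, mul_pow, Real.sq_sqrt hpi.le]
    push_cast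
    field_simp
    ring
  rw [e] at hB4
  exact hB4

end Vale.Agent.Lib.P226.H97G
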