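import Mathlib
import Vale.Agent.Lib.P226.Antipodal

/-
The theorem of this file (antipodal regrouping for the Gaussian propeller problem) and its
paper proof are due to helper35 (team report 2577). Lean formalisation: helper97.
-/

namespace Vale.Agent.Lib.P226.H97

section Algebra

variable {V : Type*} [NormedAddCommGroup V] [InnerProductSpace ℝ V]

/-- Sum over the indices different from two given distinct ones. -/
theorem sum_ite_ne_ne {n : ℕ} (f : Fin n → ℝ) (i j : Fin n) (hij : i ≠ j) :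
    ∑ l, (if l ≠ i ∧ l ≠ j then f l else 0) = ∑ l, f l - f i - f j := by
  have hpt : ∀ l, (if l ≠ i ∧ l ≠ j then f l else 0)
      = f l - (if l = i then f l else 0) - (if l = j then f l else 0) := by
    intro l
    by_cases h1 : l = i
    · have h2 : l ≠ j := by
        rw [h1]
        exact hij
      rw [if_neg (by tauto), if_pos h1, if_neg h2]
      ring
    · by_cases h2 : l = j
      · rw [if_neg (by tauto), if_neg h1, if_pos h2]
        ring
      · rw [if_pos ⟨h1, h2⟩, if_neg h1, if_neg h2]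
        ring
  rw [Finset.sum_congr rfl (fun l _ => hpt l), Finset.sum_sub_distrib, Finset.sum_sub_distrib,
    Finset.sum_ite_eq', Finset.sum_ite_eq']
  simp

/-- Sum over the ordered pairs of distinct indices. -/
theorem sum_sum_ite_ne {n : ℕ} (g : Fin n → Fin n → ℝ) :
    ∑ i, ∑ j, (if i ≠ j then g i j else 0) = ∑ i, ∑ j, g i j - ∑ i, g i i := by
  rw [← Finset.sum_sub_distrib]
  apply Finset.sum_congr rfl
  intro i _
  have hpt : ∀ j, (if i ≠ j then g i j else 0) = g i j - (if i = j then g i j else 0) := by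
    intro j
    by_cases h : i = j
    · rw [if_neg (by tauto), if_pos h]
      ring
    · rw [if_pos h, if_neg h]
      ring
  rw [Finset.sum_congr rfl (fun j _ => hpt j), Finset.sum_sub_distrib, Finset.sum_ite_eq]
  simp

/-- Antipodal regrouping, algebraic part: if every regrouping of an antisymmetric array
(row `j` merged into row `i`, except for the entry `w j i`, which is moved to row `l`)
has sum of squared row sums at most `C`, then the array itself has sum of squared row sums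
at most `n² (n - 1) / (n² (n - 1) - 2 n + 4)` times `C`. -/
theorem regroup_alg {n : ℕ} (hn : 3 ≤ n)
    (w : Fin n → Fin n → V) (anti : ∀ i j, w j i = -w i j) (C : ℝ)
    (H : ∀ i j l : Fin n, i ≠ j → l ≠ i → l ≠ j →
      (∑ m, ‖∑ a, w m a‖ ^ 2) - ‖∑ a, w i a‖ ^ 2 - ‖∑ a, w j a‖ ^ 2 - ‖∑ a, w l a‖ ^ 2
        + ‖(∑ a, w i a) + (∑ a, w j a) - w j i‖ ^ 2 + ‖(∑ a, w l a) + w j i‖ ^ 2 ≤ C) :
    ((n : ℝ) ^ 2 * ((n : ℝ) - 1) - 2 * (n : ℝ) + 4) * ∑ m, ‖∑ a, w m a‖ ^ 2
      ≤ (n : ℝ) ^ 2 * ((n : ℝ) - 1) * C := by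
  have hlap := sum_sq_row_le_antisymm w anti
  obtain ⟨z, hz⟩ : ∃ z : Fin n → V, ∀ i, z i = ∑ j, w i j := ⟨fun i => ∑ j, w i j, fun _ => rfl⟩
  simp only [← hz] at H hlap ⊢
  obtain ⟨F, hF⟩ : ∃ F : ℝ, F = ∑ i, ‖z i‖ ^ 2 := ⟨_, rfl⟩
  obtain ⟨Q, hQ⟩ : ∃ Q : ℝ, Q = ∑ i, ∑ j, ‖w i j‖ ^ 2 := ⟨_, rfl⟩
  simp only [← hF] at H
  rw [← hF, ← hQ] at hlap
  rw [← hF]
  have hdiag : ∀ i, w i i = 0 := by
    intro i
    have h := anti i i
    have h2 : w i i + w i i = 0 := by
      nth_rewrite 1 [h]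
      exact neg_add_cancel _
    have h3 : (2 : ℝ) • w i i = 0 := by
      rw [two_smul]
      exact h2
    exact (smul_eq_zero.1 h3).resolve_left (by norm_num)
  have hcol : ∀ j, ∑ i, w i j = -z j := by
    intro j
    rw [hz j, ← Finset.sum_neg_distrib]
    exact Finset.sum_congr rfl (fun i _ => anti j i)
  have hS : ∑ i, z i = 0 := by
    have h1 : ∑ i, z i = -∑ j, z j := by
      rw [← Finset.sum_neg_distrib]
      calc ∑ i, z i = ∑ i, ∑ j, w i j := Finset.sum_congr rfl (fun i _ => hz i)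
        _ = ∑ j, ∑ i, w i j := Finset.sum_comm
        _ = ∑ j, -z j := Finset.sum_congr rfl (fun j _ => hcol j)
    have h2 : ∑ i, z i + ∑ i, z i = 0 := by
      nth_rewrite 1 [h1]
      exact neg_add_cancel _
    have h3 : (2 : ℝ) • ∑ i, z i = 0 := by
      rw [two_smul]
      exact h2
    exact (smul_eq_zero.1 h3).resolve_left (by norm_num)
  have HT : ∀ i j l : Fin n, i ≠ j → l ≠ i → l ≠ j →
      F + 2 * inner ℝ (z i) (z j) + 2 * ‖w j i‖ ^ 2 - 2 * inner ℝ (z i) (w j i)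
        - 2 * inner ℝ (z j) (w j i) + 2 * inner ℝ (z l) (w j i) ≤ C := by
    intro i j l hij hli hlj
    have h := H i j l hij hli hlj
    have e1 : ‖z i + z j - w j i‖ ^ 2 = ‖z i‖ ^ 2 + ‖z j‖ ^ 2 + ‖w j i‖ ^ 2
        + 2 * inner ℝ (z i) (z j) - 2 * inner ℝ (z i) (w j i) - 2 * inner ℝ (z j) (w j i) := by
      rw [norm_sub_sq_real, norm_add_sq_real, inner_add_left]
      ring
    have e2 : ‖z l + w j i‖ ^ 2 = ‖z l‖ ^ 2 + ‖w j i‖ ^ 2 + 2 * inner ℝ (z l) (w j i) := by
      rw [norm_add_sq_real]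
      ring
    rw [e1, e2] at h
    linarith
  have HP : ∀ i j : Fin n, i ≠ j →
      ((n : ℝ) - 2) * (F + 2 * inner ℝ (z i) (z j) + 2 * ‖w j i‖ ^ 2)
        - 2 * ((n : ℝ) - 1) * (inner ℝ (z i) (w j i) + inner ℝ (z j) (w j i))
        ≤ ((n : ℝ) - 2) * C := by
    intro i j hij
    have hle : ∑ l, (if l ≠ i ∧ l ≠ j then
        (F + 2 * inner ℝ (z i) (z j) + 2 * ‖w j i‖ ^ 2 - 2 * inner ℝ (z i) (w j i)
          - 2 * inner ℝ (z j) (w j i) + 2 * inner ℝ (z l) (w j i)) else 0)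
        ≤ ∑ l : Fin n, (if l ≠ i ∧ l ≠ j then C else 0) := by
      apply Finset.sum_le_sum
      intro l _
      by_cases h : l ≠ i ∧ l ≠ j
      · rw [if_pos h, if_pos h]
        exact HT i j l hij h.1 h.2
      · rw [if_neg h, if_neg h]
    rw [sum_ite_ne_ne _ i j hij, sum_ite_ne_ne _ i j hij] at hle
    have hsumc : ∑ l : Fin n, inner ℝ (z l) (w j i) = 0 := by
      rw [← sum_inner, hS, inner_zero_left]
    simp only [Finset.sum_add_distrib, Finset.sum_sub_distrib, Finset.sum_const, Finset.card_univ,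
      Fintype.card_fin, nsmul_eq_mul, ← Finset.mul_sum] at hle
    rw [hsumc] at hle
    linarith
  have hle2 : ∑ i, ∑ j, (if i ≠ j then
      (((n : ℝ) - 2) * (F + 2 * inner ℝ (z i) (z j) + 2 * ‖w j i‖ ^ 2)
        - 2 * ((n : ℝ) - 1) * (inner ℝ (z i) (w j i) + inner ℝ (z j) (w j i))) else 0)
      ≤ ∑ i : Fin n, ∑ j : Fin n, (if i ≠ j then ((n : ℝ) - 2) * C else 0) := by
    apply Finset.sum_le_sum
    intro i _
    apply Finset.sum_le_sum
    intro j _
    by_cases h : i ≠ j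
    · rw [if_pos h, if_pos h]
      exact HP i j h
    · rw [if_neg h, if_neg h]
  rw [sum_sum_ite_ne, sum_sum_ite_ne] at hle2
  have s1 : ∑ i, ∑ j, inner ℝ (z i) (z j) = 0 := by
    have h : ∑ i, ∑ j, inner ℝ (z i) (z j) = inner ℝ (∑ i, z i) (∑ j, z j) := by
      rw [sum_inner]
      apply Finset.sum_congr rfl
      intro i _
      rw [inner_sum]
    rw [h, hS, inner_zero_left]
  have s2 : ∑ i, ∑ j, ‖w j i‖ ^ 2 = Q := by
    rw [hQ, Finset.sum_comm]
  have s3 : ∑ i, ∑ j, inner ℝ (z i) (w j i) = -F := by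
    rw [hF, ← Finset.sum_neg_distrib]
    apply Finset.sum_congr rfl
    intro i _
    rw [← inner_sum, hcol i, inner_neg_right, real_inner_self_eq_norm_sq]
  have s4 : ∑ i, ∑ j, inner ℝ (z j) (w j i) = F := by
    rw [Finset.sum_comm, hF]
    apply Finset.sum_congr rfl
    intro j _
    rw [← inner_sum, ← hz j, real_inner_self_eq_norm_sq]
  have d1 : ∑ i, inner ℝ (z i) (z i) = F := by
    rw [hF]
    apply Finset.sum_congr rfl
    intro i _
    exact real_inner_self_eq_norm_sq _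
  simp only [hdiag, norm_zero, inner_zero_right] at hle2
  simp only [Finset.sum_add_distrib, Finset.sum_sub_distrib, Finset.sum_const, Finset.card_univ,
    Fintype.card_fin, nsmul_eq_mul, ← Finset.mul_sum] at hle2
  rw [s1, s2, s3, s4, d1] at hle2
  have hn' : (3 : ℝ) ≤ (n : ℝ) := by exact_mod_cast hn
  have h3 : ((n : ℝ) - 2) * (((n : ℝ) ^ 2 - (n : ℝ) - 2) * F + 2 * Q)
      ≤ ((n : ℝ) - 2) * ((n : ℝ) * ((n : ℝ) - 1) * C) := by
    linarith
  have h4 := le_of_mul_le_mul_left h3 (by linarith : (0 : ℝ) < (n : ℝ) - 2)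
  have h5 := mul_le_mul_of_nonneg_left h4 (by linarith : (0 : ℝ) ≤ (n : ℝ))
  linarith

end Algebra

end Vale.Agent.Lib.P226.H97
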