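import Mathlib
import Vale.Agent.Lib.P226.H97.RegroupAlg

/-
The theorem of this file (antipodal regrouping for the Gaussian propeller problem) and its
paper proof are due to helper35 (team report 2577). Lean formalisation: helper97.
-/

namespace Vale.Agent.Lib.P226.H97

open MeasureTheory ProbabilityTheory Set

section Measure

variable {d : ℕ}

/-- Antipodal regrouping, measure part: from a partition into `k + 1` cells and distinct
indices `i, j, l`, move the piece `A j ∩ -A i` of the cell `A j` into the cell `A l` and the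
rest of `A j` into the cell `A i`. The result is a partition into `k` cells whose sum of
squared first moments is given by the displayed expression. -/
theorem regroup_meas_exists {k : ℕ}
    (A : Fin (k + 1) → Set (EuclideanSpace ℝ (Fin d)))
    (hA : ∀ i, MeasurableSet (A i)) (hdisj : ∀ i j, i ≠ j → Disjoint (A i) (A j))
    (hcover : ⋃ i, A i = Set.univ) (i j l : Fin (k + 1)) (hij : i ≠ j) (hli : l ≠ i)
    (hlj : l ≠ j) :
    ∃ B : Fin k → Set (EuclideanSpace ℝ (Fin d)), (∀ m, MeasurableSet (B m)) ∧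
      (∀ a b, a ≠ b → Disjoint (B a) (B b)) ∧ ⋃ m, B m = Set.univ ∧
      ∑ m, ‖∫ x in B m, x ∂(stdGaussian (EuclideanSpace ℝ (Fin d)))‖ ^ 2
        = (∑ m, ‖∫ x in A m, x ∂(stdGaussian (EuclideanSpace ℝ (Fin d)))‖ ^ 2)
        - ‖∫ x in A i, x ∂(stdGaussian (EuclideanSpace ℝ (Fin d)))‖ ^ 2
        - ‖∫ x in A j, x ∂(stdGaussian (EuclideanSpace ℝ (Fin d)))‖ ^ 2
        - ‖∫ x in A l, x ∂(stdGaussian (EuclideanSpace ℝ (Fin d)))‖ ^ 2
        + ‖(∫ x in A i, x ∂(stdGaussian (EuclideanSpace ℝ (Fin d))))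
            + (∫ x in A j, x ∂(stdGaussian (EuclideanSpace ℝ (Fin d))))
            - ∫ x in A j ∩ {x | -x ∈ A i}, x ∂(stdGaussian (EuclideanSpace ℝ (Fin d)))‖ ^ 2
        + ‖(∫ x in A l, x ∂(stdGaussian (EuclideanSpace ℝ (Fin d))))
            + ∫ x in A j ∩ {x | -x ∈ A i}, x ∂(stdGaussian (EuclideanSpace ℝ (Fin d)))‖ ^ 2 := by
  have hint : Integrable (fun x : EuclideanSpace ℝ (Fin d) => x)
      (stdGaussian (EuclideanSpace ℝ (Fin d))) := IsGaussian.integrable_id
  obtain ⟨T, hT⟩ : ∃ T : Set (EuclideanSpace ℝ (Fin d)), T = {x | -x ∈ A i} := ⟨_, rfl⟩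
  have hTm : MeasurableSet T := by
    rw [hT]
    exact measurable_neg (hA i)
  rw [← hT]
  obtain ⟨B', hB'⟩ : ∃ B' : Fin (k + 1) → Set (EuclideanSpace ℝ (Fin d)), ∀ m, B' m =
      if m = j then ∅ else if m = i then A i ∪ (A j \ T) else
        if m = l then A l ∪ (A j ∩ T) else A m := ⟨_, fun _ => rfl⟩
  have hBj : B' j = ∅ := by
    rw [hB', if_pos rfl]
  have hBi : B' i = A i ∪ (A j \ T) := by
    rw [hB', if_neg hij, if_pos rfl]
  have hBl : B' l = A l ∪ (A j ∩ T) := by
    rw [hB', if_neg hlj, if_neg hli, if_pos rfl]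
  have hBo : ∀ m, m ≠ j → m ≠ i → m ≠ l → B' m = A m := by
    intro m h1 h2 h3
    rw [hB', if_neg h1, if_neg h2, if_neg h3]
  have hBmeas : ∀ m, MeasurableSet (B' m) := by
    intro m
    by_cases h1 : m = j
    · rw [h1, hBj]
      exact MeasurableSet.empty
    · by_cases h2 : m = i
      · rw [h2, hBi]
        exact (hA i).union ((hA j).diff hTm)
      · by_cases h3 : m = l
        · rw [h3, hBl]
          exact (hA l).union ((hA j).inter hTm)
        · rw [hBo m h1 h2 h3]
          exact hA m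
  have hsub : ∀ m, m ≠ j → A m ⊆ B' m := by
    intro m h1
    by_cases h2 : m = i
    · rw [h2, hBi]
      exact Set.subset_union_left
    · by_cases h3 : m = l
      · rw [h3, hBl]
        exact Set.subset_union_left
      · rw [hBo m h1 h2 h3]
  have hchar : ∀ m x, x ∈ B' m →
      m ≠ j ∧ (x ∈ A m ∨ (m = i ∧ x ∈ A j \ T) ∨ (m = l ∧ x ∈ A j ∩ T)) := by
    intro m x hx
    by_cases h1 : m = j
    · rw [h1, hBj] at hx
      exact absurd hx (Set.notMem_empty x)
    · refine ⟨h1, ?_⟩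
      by_cases h2 : m = i
      · rw [h2, hBi] at hx
        rcases hx with hx | hx
        · left
          rw [h2]
          exact hx
        · right
          left
          exact ⟨h2, hx⟩
      · by_cases h3 : m = l
        · rw [h3, hBl] at hx
          rcases hx with hx | hx
          · left
            rw [h3]
            exact hx
          · right
            right
            exact ⟨h3, hx⟩
        · rw [hBo m h1 h2 h3] at hx
          left
          exact hx
  have hBdisj : ∀ a b, a ≠ b → Disjoint (B' a) (B' b) := by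
    intro a b hab
    rw [Set.disjoint_left]
    intro x hxa hxb
    obtain ⟨haj, ha⟩ := hchar a x hxa
    obtain ⟨hbj, hb⟩ := hchar b x hxb
    rcases ha with ha | ⟨ha1, ha2⟩ | ⟨ha1, ha2⟩
    · rcases hb with hb | ⟨hb1, hb2⟩ | ⟨hb1, hb2⟩
      · exact (Set.disjoint_left.1 (hdisj a b hab)) ha hb
      · exact (Set.disjoint_left.1 (hdisj a j haj)) ha hb2.1
      · exact (Set.disjoint_left.1 (hdisj a j haj)) ha hb2.1
    · rcases hb with hb | ⟨hb1, hb2⟩ | ⟨hb1, hb2⟩
      · exact (Set.disjoint_left.1 (hdisj b j hbj)) hb ha2.1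
      · exact hab (ha1.trans hb1.symm)
      · exact ha2.2 hb2.2
    · rcases hb with hb | ⟨hb1, hb2⟩ | ⟨hb1, hb2⟩
      · exact (Set.disjoint_left.1 (hdisj b j hbj)) hb ha2.1
      · exact hb2.2 ha2.2
      · exact hab (ha1.trans hb1.symm)
  have hBcover : ∀ x, ∃ m, m ≠ j ∧ x ∈ B' m := by
    intro x
    have hx : x ∈ ⋃ i, A i := by
      rw [hcover]
      exact Set.mem_univ _
    obtain ⟨a, ha⟩ := Set.mem_iUnion.1 hx
    by_cases h1 : a = j
    · rw [h1] at ha
      by_cases hxT : x ∈ T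
      · refine ⟨l, hlj, ?_⟩
        rw [hBl]
        exact Or.inr ⟨ha, hxT⟩
      · refine ⟨i, hij, ?_⟩
        rw [hBi]
        exact Or.inr ⟨ha, hxT⟩
    · exact ⟨a, h1, hsub a h1 ha⟩
  refine ⟨fun m => B' (j.succAbove m), fun m => hBmeas _,
    fun a b hab => hBdisj _ _ (fun h => hab (Fin.succAbove_right_injective h)), ?_, ?_⟩
  · ext x
    simp only [Set.mem_iUnion, Set.mem_univ, iff_true]
    obtain ⟨m, hm, hx⟩ := hBcover x
    obtain ⟨m', hm'⟩ := Fin.exists_succAbove_eq hm
    exact ⟨m', by rw [hm']; exact hx⟩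
  have hsplit := Fin.sum_univ_succAbove
    (fun a => ‖∫ x in B' a, x ∂(stdGaussian (EuclideanSpace ℝ (Fin d)))‖ ^ 2) j
  have hzj0 : ‖∫ x in B' j, x ∂(stdGaussian (EuclideanSpace ℝ (Fin d)))‖ ^ 2 = 0 := by
    rw [hBj, setIntegral_empty, norm_zero]
    norm_num
  have hzR : ∫ x in A j \ T, x ∂(stdGaussian (EuclideanSpace ℝ (Fin d)))
      = (∫ x in A j, x ∂(stdGaussian (EuclideanSpace ℝ (Fin d))))
        - ∫ x in A j ∩ T, x ∂(stdGaussian (EuclideanSpace ℝ (Fin d))) := by
    have h := integral_inter_add_sdiff (μ := stdGaussian (EuclideanSpace ℝ (Fin d)))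
      (f := fun x : EuclideanSpace ℝ (Fin d) => x) (s := A j) hTm hint.integrableOn
    rw [← h]
    abel
  have hzi : ∫ x in B' i, x ∂(stdGaussian (EuclideanSpace ℝ (Fin d)))
      = (∫ x in A i, x ∂(stdGaussian (EuclideanSpace ℝ (Fin d))))
        + (∫ x in A j, x ∂(stdGaussian (EuclideanSpace ℝ (Fin d))))
        - ∫ x in A j ∩ T, x ∂(stdGaussian (EuclideanSpace ℝ (Fin d))) := by
    rw [hBi, setIntegral_union ((hdisj i j hij).mono_right Set.sdiff_subset) ((hA j).diff hTm)
      hint.integrableOn hint.integrableOn, hzR]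
    abel
  have hzl : ∫ x in B' l, x ∂(stdGaussian (EuclideanSpace ℝ (Fin d)))
      = (∫ x in A l, x ∂(stdGaussian (EuclideanSpace ℝ (Fin d))))
        + ∫ x in A j ∩ T, x ∂(stdGaussian (EuclideanSpace ℝ (Fin d))) := by
    rw [hBl, setIntegral_union ((hdisj l j hlj).mono_right Set.inter_subset_left)
      ((hA j).inter hTm) hint.integrableOn hint.integrableOn]
  have hpt : ∀ a, ‖∫ x in B' a, x ∂(stdGaussian (EuclideanSpace ℝ (Fin d)))‖ ^ 2
      = ‖∫ x in A a, x ∂(stdGaussian (EuclideanSpace ℝ (Fin d)))‖ ^ 2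
        + (if a = i then ‖∫ x in B' a, x ∂(stdGaussian (EuclideanSpace ℝ (Fin d)))‖ ^ 2
            - ‖∫ x in A a, x ∂(stdGaussian (EuclideanSpace ℝ (Fin d)))‖ ^ 2 else 0)
        + (if a = j then ‖∫ x in B' a, x ∂(stdGaussian (EuclideanSpace ℝ (Fin d)))‖ ^ 2
            - ‖∫ x in A a, x ∂(stdGaussian (EuclideanSpace ℝ (Fin d)))‖ ^ 2 else 0)
        + (if a = l then ‖∫ x in B' a, x ∂(stdGaussian (EuclideanSpace ℝ (Fin d)))‖ ^ 2
            - ‖∫ x in A a, x ∂(stdGaussian (EuclideanSpace ℝ (Fin d)))‖ ^ 2 else 0) := by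
    intro a
    by_cases h1 : a = j
    · have h2 : a ≠ i := by
        rw [h1]
        exact hij.symm
      have h3 : a ≠ l := by
        rw [h1]
        exact hlj.symm
      rw [if_neg h2, if_pos h1, if_neg h3]
      ring
    · by_cases h2 : a = i
      · have h3 : a ≠ l := by
          rw [h2]
          exact hli.symm
        rw [if_pos h2, if_neg h1, if_neg h3]
        ring
      · by_cases h3 : a = l
        · rw [if_neg h2, if_neg h1, if_pos h3]
          ring
        · rw [if_neg h2, if_neg h1, if_neg h3, hBo a h1 h2 h3]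
          ring
  have hsum : ∑ a, ‖∫ x in B' a, x ∂(stdGaussian (EuclideanSpace ℝ (Fin d)))‖ ^ 2
      = (∑ a, ‖∫ x in A a, x ∂(stdGaussian (EuclideanSpace ℝ (Fin d)))‖ ^ 2)
        + (‖∫ x in B' i, x ∂(stdGaussian (EuclideanSpace ℝ (Fin d)))‖ ^ 2
            - ‖∫ x in A i, x ∂(stdGaussian (EuclideanSpace ℝ (Fin d)))‖ ^ 2)
        + (‖∫ x in B' j, x ∂(stdGaussian (EuclideanSpace ℝ (Fin d)))‖ ^ 2
            - ‖∫ x in A j, x ∂(stdGaussian (EuclideanSpace ℝ (Fin d)))‖ ^ 2)
        + (‖∫ x in B' l, x ∂(stdGaussian (EuclideanSpace ℝ (Fin d)))‖ ^ 2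
            - ‖∫ x in A l, x ∂(stdGaussian (EuclideanSpace ℝ (Fin d)))‖ ^ 2) := by
    rw [Finset.sum_congr rfl (fun a _ => hpt a), Finset.sum_add_distrib, Finset.sum_add_distrib,
      Finset.sum_add_distrib, Finset.sum_ite_eq', Finset.sum_ite_eq', Finset.sum_ite_eq']
    simp
  rw [hsum, hzj0, hzi, hzl] at hsplit
  linarith

end Measure

end Vale.Agent.Lib.P226.H97
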