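import Mathlib
import Vale.Agent.Lib.P226.H97.RegroupMeas

/-
The theorem of this file (antipodal regrouping for the Gaussian propeller problem) and its
paper proof are due to helper35 (team report 2577). Lean formalisation: helper97.
-/

namespace Vale.Agent.Lib.P226.H97

open MeasureTheory ProbabilityTheory Set

section Reduction

variable {d : ℕ}

/-- Antipodal regrouping, existence form: every measurable partition of `ℝ^d` into `k + 1 ≥ 3`
cells can be regrouped into a measurable partition into `k` cells whose sum of squared first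
moments is at least the fraction `((k + 1)² k - 2 k + 2) / ((k + 1)² k)` of the original sum. -/
theorem cell_reduction_exists {k : ℕ} (hk : 2 ≤ k)
    (A : Fin (k + 1) → Set (EuclideanSpace ℝ (Fin d)))
    (hA : ∀ i, MeasurableSet (A i)) (hdisj : ∀ i j, i ≠ j → Disjoint (A i) (A j))
    (hcover : ⋃ i, A i = Set.univ) :
    ∃ B : Fin k → Set (EuclideanSpace ℝ (Fin d)), (∀ m, MeasurableSet (B m)) ∧
      (∀ a b, a ≠ b → Disjoint (B a) (B b)) ∧ ⋃ m, B m = Set.univ ∧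
      (((k : ℝ) + 1) ^ 2 * (k : ℝ) - 2 * (k : ℝ) + 2)
          * ∑ i, ‖∫ x in A i, x ∂(stdGaussian (EuclideanSpace ℝ (Fin d)))‖ ^ 2
        ≤ ((k : ℝ) + 1) ^ 2 * (k : ℝ)
          * ∑ m, ‖∫ x in B m, x ∂(stdGaussian (EuclideanSpace ℝ (Fin d)))‖ ^ 2 := by
  obtain ⟨T, hT⟩ : ∃ T : Fin (k + 1) × Fin (k + 1) × Fin (k + 1) → ℝ, ∀ t, T t =
      (∑ m, ‖∫ x in A m, x ∂(stdGaussian (EuclideanSpace ℝ (Fin d)))‖ ^ 2)
        - ‖∫ x in A t.1, x ∂(stdGaussian (EuclideanSpace ℝ (Fin d)))‖ ^ 2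
        - ‖∫ x in A t.2.1, x ∂(stdGaussian (EuclideanSpace ℝ (Fin d)))‖ ^ 2
        - ‖∫ x in A t.2.2, x ∂(stdGaussian (EuclideanSpace ℝ (Fin d)))‖ ^ 2
        + ‖(∫ x in A t.1, x ∂(stdGaussian (EuclideanSpace ℝ (Fin d))))
            + (∫ x in A t.2.1, x ∂(stdGaussian (EuclideanSpace ℝ (Fin d))))
            - ∫ x in A t.2.1 ∩ {x | -x ∈ A t.1}, x
                ∂(stdGaussian (EuclideanSpace ℝ (Fin d)))‖ ^ 2
        + ‖(∫ x in A t.2.2, x ∂(stdGaussian (EuclideanSpace ℝ (Fin d))))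
            + ∫ x in A t.2.1 ∩ {x | -x ∈ A t.1}, x
                ∂(stdGaussian (EuclideanSpace ℝ (Fin d)))‖ ^ 2 := ⟨_, fun _ => rfl⟩
  have hS : (Finset.univ.filter (fun t : Fin (k + 1) × Fin (k + 1) × Fin (k + 1) =>
      t.1 ≠ t.2.1 ∧ t.2.2 ≠ t.1 ∧ t.2.2 ≠ t.2.1)).Nonempty := by
    refine ⟨(⟨0, by omega⟩, ⟨1, by omega⟩, ⟨2, by omega⟩), ?_⟩
    rw [Finset.mem_filter]
    refine ⟨Finset.mem_univ _, ?_, ?_, ?_⟩
    · intro h
      have h' := congrArg Fin.val h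
      simp at h'
    · intro h
      have h' := congrArg Fin.val h
      simp at h'
    · intro h
      have h' := congrArg Fin.val h
      simp at h'
  obtain ⟨t, ht, hmax⟩ := Finset.exists_max_image _ T hS
  rw [Finset.mem_filter] at ht
  obtain ⟨B, hBm, hBd, hBc, hBsum⟩ :=
    regroup_meas_exists A hA hdisj hcover t.1 t.2.1 t.2.2 ht.2.1 ht.2.2.1 ht.2.2.2
  refine ⟨B, hBm, hBd, hBc, ?_⟩
  have h := regroup_alg (n := k + 1) (by omega)
    (fun a b => ∫ x in A a ∩ {x | -x ∈ A b}, x ∂(stdGaussian (EuclideanSpace ℝ (Fin d))))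
    (fun a b => first_moment_antipodal_antisymm A hA a b) (T t)
    (fun i j l hij hli hlj => by
      simp only [← first_moment_eq_sum_antipodal A hA hdisj hcover]
      have hle := hmax (i, j, l) (by
        rw [Finset.mem_filter]
        exact ⟨Finset.mem_univ _, hij, hli, hlj⟩)
      rw [hT (i, j, l)] at hle
      exact hle)
  simp only [← first_moment_eq_sum_antipodal A hA hdisj hcover] at h
  push_cast at h
  have e1 : ((k : ℝ) + 1) ^ 2 * ((k : ℝ) + 1 - 1) - 2 * ((k : ℝ) + 1) + 4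
      = ((k : ℝ) + 1) ^ 2 * (k : ℝ) - 2 * (k : ℝ) + 2 := by ring
  have e2 : ((k : ℝ) + 1) ^ 2 * ((k : ℝ) + 1 - 1) = ((k : ℝ) + 1) ^ 2 * (k : ℝ) := by ring
  rw [e1, e2] at h
  rw [hBsum, ← hT t]
  exact h

/-- Antipodal regrouping, bound form: a bound `C` for all measurable partitions of `ℝ^d` into
`k ≥ 2` cells gives the bound `(k + 1)² k / ((k + 1)² k - 2 k + 2) * C` for all partitions into
`k + 1` cells. -/
theorem cell_reduction {k : ℕ} (hk : 2 ≤ k) (C : ℝ)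
    (hC : ∀ B : Fin k → Set (EuclideanSpace ℝ (Fin d)), (∀ m, MeasurableSet (B m)) →
      (∀ a b, a ≠ b → Disjoint (B a) (B b)) → ⋃ m, B m = Set.univ →
      ∑ m, ‖∫ x in B m, x ∂(stdGaussian (EuclideanSpace ℝ (Fin d)))‖ ^ 2 ≤ C)
    (A : Fin (k + 1) → Set (EuclideanSpace ℝ (Fin d)))
    (hA : ∀ i, MeasurableSet (A i)) (hdisj : ∀ i j, i ≠ j → Disjoint (A i) (A j))
    (hcover : ⋃ i, A i = Set.univ) :
    (((k : ℝ) + 1) ^ 2 * (k : ℝ) - 2 * (k : ℝ) + 2)
        * ∑ i, ‖∫ x in A i, x ∂(stdGaussian (EuclideanSpace ℝ (Fin d)))‖ ^ 2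
      ≤ ((k : ℝ) + 1) ^ 2 * (k : ℝ) * C := by
  obtain ⟨B, hBm, hBd, hBc, hB⟩ := cell_reduction_exists hk A hA hdisj hcover
  have hle := hC B hBm hBd hBc
  have hk0 : (0 : ℝ) ≤ ((k : ℝ) + 1) ^ 2 * (k : ℝ) := by positivity
  exact hB.trans (mul_le_mul_of_nonneg_left hle hk0)

/-- Five cells from four: if the propeller inequality holds for all partitions of `ℝ^d` into
four cells, then every partition into five cells has sum at most `225 / (188 π)`. -/
theorem five_of_four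
    (h4 : ∀ B : Fin 4 → Set (EuclideanSpace ℝ (Fin d)), (∀ m, MeasurableSet (B m)) →
      (∀ a b, a ≠ b → Disjoint (B a) (B b)) → ⋃ m, B m = Set.univ →
      ∑ m, ‖∫ x in B m, x ∂(stdGaussian (EuclideanSpace ℝ (Fin d)))‖ ^ 2 ≤ 9 / (8 * Real.pi))
    (A : Fin 5 → Set (EuclideanSpace ℝ (Fin d)))
    (hA : ∀ i, MeasurableSet (A i)) (hdisj : ∀ i j, i ≠ j → Disjoint (A i) (A j))
    (hcover : ⋃ i, A i = Set.univ) :
    ∑ i, ‖∫ x in A i, x ∂(stdGaussian (EuclideanSpace ℝ (Fin d)))‖ ^ 2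
      ≤ 225 / (188 * Real.pi) := by
  have h := cell_reduction (k := 4) (by norm_num) (9 / (8 * Real.pi)) h4 A hA hdisj hcover
  have hpi : 0 < Real.pi := Real.pi_pos
  rw [le_div_iff₀ (by positivity)]
  have e : (9 : ℝ) / (8 * Real.pi) * (188 * Real.pi) = 423 / 2 := by
    field_simp
    norm_num
  push_cast at h
  have h' : (94 : ℝ) * ∑ i, ‖∫ x in A i, x ∂(stdGaussian (EuclideanSpace ℝ (Fin d)))‖ ^ 2
      ≤ 100 * (9 / (8 * Real.pi)) := by
    linarith
  have h'' := mul_le_mul_of_nonneg_right h' (by positivity : (0 : ℝ) ≤ 188 * Real.pi)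
  rw [mul_assoc (100 : ℝ), e] at h''
  nlinarith

/-- Six cells from four: under the same hypothesis every partition into six cells has sum at
most `10125 / (8084 π)`. -/
theorem six_of_four
    (h4 : ∀ B : Fin 4 → Set (EuclideanSpace ℝ (Fin d)), (∀ m, MeasurableSet (B m)) →
      (∀ a b, a ≠ b → Disjoint (B a) (B b)) → ⋃ m, B m = Set.univ →
      ∑ m, ‖∫ x in B m, x ∂(stdGaussian (EuclideanSpace ℝ (Fin d)))‖ ^ 2 ≤ 9 / (8 * Real.pi))
    (A : Fin 6 → Set (EuclideanSpace ℝ (Fin d)))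
    (hA : ∀ i, MeasurableSet (A i)) (hdisj : ∀ i j, i ≠ j → Disjoint (A i) (A j))
    (hcover : ⋃ i, A i = Set.univ) :
    ∑ i, ‖∫ x in A i, x ∂(stdGaussian (EuclideanSpace ℝ (Fin d)))‖ ^ 2
      ≤ 10125 / (8084 * Real.pi) := by
  have h := cell_reduction (k := 5) (by norm_num) (225 / (188 * Real.pi))
    (fun B hB hBd hBc => five_of_four h4 B hB hBd hBc) A hA hdisj hcover
  have hpi : 0 < Real.pi := Real.pi_pos
  rw [le_div_iff₀ (by positivity)]
  have e : (225 : ℝ) / (188 * Real.pi) * (8084 * Real.pi) = 9675 := by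
    field_simp
    norm_num
  push_cast at h
  have h' : (172 : ℝ) * ∑ i, ‖∫ x in A i, x ∂(stdGaussian (EuclideanSpace ℝ (Fin d)))‖ ^ 2
      ≤ 180 * (225 / (188 * Real.pi)) := by
    linarith
  have h'' := mul_le_mul_of_nonneg_right h' (by positivity : (0 : ℝ) ≤ 8084 * Real.pi)
  rw [mul_assoc (180 : ℝ), e] at h''
  nlinarith

end Reduction

end Vale.Agent.Lib.P226.H97
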